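import Vale.Agent.P079.Compact
import Mathlib.Analysis.Convex.KreinMilman
import Mathlib.Analysis.Convex.Join
import Mathlib.Analysis.LocallyConvex.WeakDual
import Mathlib.Topology.Baire.Lemmas
import Mathlib.Topology.Baire.LocallyCompactRegular

/-!
Weakly compact convex sets hold no bush: the slice argument.
-/

namespace Vale.Agent.P079

open Set Metric Filter
open scoped Topology Pointwise

section Join

variable {E : Type*} [AddCommGroup E] [Module ℝ E] [TopologicalSpace E]
  [IsTopologicalAddGroup E] [ContinuousSMul ℝ E]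

lemma compact_convexHull_union {A B : Set E} (hA : IsCompact A) (hA' : Convex ℝ A)
    (hB : IsCompact B) (hB' : Convex ℝ B) : IsCompact (convexHull ℝ (A ∪ B)) := by
  rcases A.eq_empty_or_nonempty with rfl | hAne
  · rwa [empty_union, hB'.convexHull_eq]
  rcases B.eq_empty_or_nonempty with rfl | hBne
  · rwa [union_empty, hA'.convexHull_eq]
  have h : convexHull ℝ (A ∪ B)
      = (fun p : ℝ × E × E => (1 - p.1) • p.2.1 + p.1 • p.2.2) '' (Icc (0 : ℝ) 1 ×ˢ A ×ˢ B) := by
    rw [hA'.convexHull_union hB' hAne hBne]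
    ext x
    constructor
    · intro hx
      obtain ⟨a, ha, b, hb, hab⟩ := mem_convexJoin.1 hx
      rw [segment_eq_image] at hab
      obtain ⟨θ, hθ, rfl⟩ := hab
      exact ⟨(θ, a, b), ⟨hθ, ha, hb⟩, rfl⟩
    · rintro ⟨⟨θ, a, b⟩, ⟨hθ, ha, hb⟩, rfl⟩
      exact mem_convexJoin.2 ⟨a, ha, b, hb, by rw [segment_eq_image]; exact ⟨θ, hθ, rfl⟩⟩
  rw [h]
  exact (isCompact_Icc.prod (hA.prod hB)).image (by fun_prop)

omit [TopologicalSpace E] [IsTopologicalAddGroup E] [ContinuousSMul ℝ E] in
lemma extreme_not_mem_convexHull_union {U A B : Set E} {e : E} (he : e ∈ U.extremePoints ℝ)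
    (hA' : Convex ℝ A) (hB' : Convex ℝ B) (hAU : A ⊆ U) (hBU : B ⊆ U) (heA : e ∉ A)
    (heB : e ∉ B) : e ∉ convexHull ℝ (A ∪ B) := by
  intro h
  rcases A.eq_empty_or_nonempty with rfl | hAne
  · rw [empty_union, hB'.convexHull_eq] at h; exact heB h
  rcases B.eq_empty_or_nonempty with rfl | hBne
  · rw [union_empty, hA'.convexHull_eq] at h; exact heA h
  rw [hA'.convexHull_union hB' hAne hBne] at h
  obtain ⟨a, ha, b, hb, hab⟩ := mem_convexJoin.1 h
  rcases (mem_extremePoints_iff_forall_segment.1 he).2 a (hAU ha) b (hBU hb) hab with h' | h'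
  · exact heA (h' ▸ ha)
  · exact heB (h' ▸ hb)

end Join

variable {X : Type*} [NormedAddCommGroup X] [NormedSpace ℝ X]

/-- A countable family in a weakly compact convex set in which every member is a convex
combination of finitely many others at distance at least `c` from it cannot exist. -/
theorem no_bush {C : Set X} (hC : IsCompact (toWeakSpace ℝ X '' C)) (hCcv : Convex ℝ C)
    {ι : Type*} [Countable ι] [Nonempty ι] (M : ι → X) (hM : ∀ t, M t ∈ C) {c : ℝ} (hc : 0 < c)
    (kids : ι → Finset ι) (w : ι → ι → ℝ) (hw0 : ∀ t, ∀ k ∈ kids t, 0 ≤ w t k)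
    (hw1 : ∀ t, ∑ k ∈ kids t, w t k = 1) (hmean : ∀ t, ∑ k ∈ kids t, w t k • M k = M t)
    (hjump : ∀ t, ∀ k ∈ kids t, c ≤ ‖M k - M t‖) : False := by
  classical
  haveI : LocallyConvexSpace ℝ (WeakSpace ℝ X) :=
    inferInstanceAs (LocallyConvexSpace ℝ (WeakBilin (topDualPairing ℝ X).flip))
  let j : X ≃ₗ[ℝ] WeakSpace ℝ X := toWeakSpace ℝ X
  obtain ⟨R, hR⟩ := isBounded_iff_forall_norm_le.1 (isBounded_of_weaklyCompact hC)
  set U := closure (convexHull ℝ (range M)) with hU
  have hUC : U ⊆ C := closure_minimal (convexHull_min (range_subset_iff.2 hM) hCcv)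
    (isClosed_of_weaklyCompact hC)
  have hUcv : Convex ℝ U := (convex_convexHull ℝ _).closure
  have hU'closed : IsClosed (j '' U) := by
    rw [hU, (convex_convexHull ℝ _).toWeakSpace_closure ℝ]; exact isClosed_closure
  have hU'cpt : IsCompact (j '' U) := hC.of_isClosed_subset hU'closed (Set.image_mono hUC)
  have hU'cv : Convex ℝ (j '' U) := hUcv.linear_image (j : X →ₗ[ℝ] WeakSpace ℝ X)
  set E := (j '' U).extremePoints ℝ with hE
  have hEbar : closure E ⊆ j '' U := closure_minimal extremePoints_subset hU'closed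
  obtain ⟨D, hDc, hD⟩ : TopologicalSpace.IsSeparable U := by
    refine ((countable_range M).isSeparable.span (R := ℝ)).closure.mono ?_
    exact closure_mono (convexHull_min Submodule.subset_span (Submodule.convex _))
  have hball : ∀ x : X, IsClosed (j '' closedBall x (c / 8)) := fun x => by
    rw [← isClosed_closedBall.closure_eq, (convex_closedBall x _).toWeakSpace_closure ℝ]
    exact isClosed_closure
  have hEne : E.Nonempty :=
    hU'cpt.extremePoints_nonempty
      (((range_nonempty M).mono (subset_convexHull ℝ _)).closure.image _)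
  haveI : CompactSpace (closure E) :=
    isCompact_iff_compactSpace.1 (hU'cpt.of_isClosed_subset isClosed_closure hEbar)
  haveI : Nonempty (closure E) := hEne.closure.to_subtype
  haveI : Countable D := hDc.to_subtype
  obtain ⟨x₀, hx₀⟩ := nonempty_interior_of_iUnion_of_closed
    (f := fun x : D => (Subtype.val : closure E → WeakSpace ℝ X) ⁻¹' (j '' closedBall x.1 (c / 8)))
    (fun x => (hball x.1).preimage continuous_subtype_val) (by
      refine eq_univ_of_forall fun y => mem_iUnion.2 ?_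
      obtain ⟨u, hu, huy⟩ := hEbar y.2
      obtain ⟨x, hx, hux⟩ := Metric.mem_closure_iff.1 (hD hu) (c / 8) (by positivity)
      exact ⟨⟨x, hx⟩, u, mem_closedBall.2 hux.le, huy⟩)
  obtain ⟨y, hy⟩ := hx₀
  obtain ⟨O', hO's, hO'open, hyO'⟩ := mem_interior.1 hy
  obtain ⟨O, hO, rfl⟩ := isOpen_induced_iff.1 hO'open
  obtain ⟨e, heO, heE⟩ := mem_closure_iff.1 y.2 O hO hyO'
  -- a compact convex set avoiding `e` and holding the rest of the extreme points
  have hsep : ∀ s ∈ closure E \ O, ∃ (f : StrongDual ℝ (WeakSpace ℝ X)) (r : ℝ),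
      f s < r ∧ r < f e := by
    intro s hs
    obtain ⟨f, hf⟩ := geometric_hahn_banach_point_point (E := WeakSpace ℝ X)
      (show s ≠ e from fun h => hs.2 (h ▸ heO))
    exact ⟨f, (f s + f e) / 2, by linarith, by linarith⟩
  choose! f r hfs hfe using hsep
  obtain ⟨T, hT⟩ := ((hU'cpt.of_isClosed_subset isClosed_closure hEbar).diff hO).elim_finite_subcover
    (fun s : ↥(closure E \ O) => {v | f s.1 v < r s.1})
    (fun s => isOpen_lt (f s.1).continuous continuous_const)
    (fun v hv => mem_iUnion.2 ⟨⟨v, hv⟩, hfs v hv⟩)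
  obtain ⟨C₁, hC₁cpt, hC₁cv, hC₁U, heC₁, hC₁⟩ : ∃ C₁ : Set (WeakSpace ℝ X), IsCompact C₁ ∧
      Convex ℝ C₁ ∧ C₁ ⊆ j '' U ∧ e ∉ C₁ ∧
      ∀ s ∈ T, j '' U ∩ {v | f s.1 v ≤ r s.1} ⊆ C₁ := by
    clear hT
    induction T using Finset.induction with
    | empty => exact ⟨∅, isCompact_empty, convex_empty, empty_subset _, notMem_empty e, by simp⟩
    | insert s T hsT ih =>
      obtain ⟨C₁, h1, h2, h3, h4, h5⟩ := ih
      have hAcpt : IsCompact (j '' U ∩ {v | f s.1 v ≤ r s.1}) :=
        hU'cpt.inter_right (isClosed_le (f s.1).continuous continuous_const)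
      have hAcv : Convex ℝ (j '' U ∩ {v | f s.1 v ≤ r s.1}) :=
        hU'cv.inter (convex_halfSpace_le (f s.1).toLinearMap.isLinear _)
      refine ⟨convexHull ℝ ((j '' U ∩ {v | f s.1 v ≤ r s.1}) ∪ C₁),
        compact_convexHull_union hAcpt hAcv h1 h2, convex_convexHull ℝ _,
        convexHull_min (union_subset inter_subset_left h3) hU'cv,
        extreme_not_mem_convexHull_union heE hAcv h2 inter_subset_left h3
          (fun h => (not_le.2 (hfe s.1 s.2)) h.2) h4, fun s' hs' => ?_⟩
      rcases Finset.mem_insert.1 hs' with rfl | h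
      · exact (subset_union_left).trans (subset_convexHull ℝ _)
      · exact (h5 s' h).trans (subset_union_right.trans (subset_convexHull ℝ _))
  set C₂ := j '' U ∩ j '' closedBall x₀.1 (c / 8) with hC₂
  have hC₂cpt : IsCompact C₂ := hU'cpt.inter_right (hball _)
  have hC₂cv : Convex ℝ C₂ :=
    hU'cv.inter ((convex_closedBall _ _).linear_image (j : X →ₗ[ℝ] WeakSpace ℝ X))
  have hEsub : closure E ⊆ C₁ ∪ C₂ := by
    intro v hv
    by_cases hvO : v ∈ O
    · exact Or.inr ⟨hEbar hv, hO's (show (⟨v, hv⟩ : closure E) ∈ _ from hvO)⟩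
    · obtain ⟨s, hs⟩ := mem_iUnion.1 (hT ⟨hv, hvO⟩)
      obtain ⟨hsT, hlt⟩ := mem_iUnion.1 hs
      exact Or.inl (hC₁ s hsT ⟨hEbar hv, show f s.1 v ≤ r s.1 from le_of_lt hlt⟩)
  have hcover : j '' U ⊆ convexHull ℝ (C₁ ∪ C₂) := by
    rw [← closure_convexHull_extremePoints hU'cpt hU'cv]
    exact closure_minimal
      (convexHull_mono (subset_closure.trans hEsub))
      (compact_convexHull_union hC₁cpt hC₁cv hC₂cpt hC₂cv).isClosed
  -- the part of `U` far from the ball
  set ρ := min (1 / 2) (c / 8 / (|R| + ‖x₀.1‖ + 1)) with hρdef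
  have hρ0 : 0 < ρ := lt_min (by norm_num) (by positivity)
  have hρ1 : ρ ≤ 1 / 2 := min_le_left _ _
  set P := ρ • C₁ + (1 - ρ) • C₂ with hP
  have hPcpt : IsCompact P :=
    ((hC₁cpt.image (continuous_const_smul ρ)).add (hC₂cpt.image (continuous_const_smul _)))
  have hPcv : Convex ℝ P := (hC₁cv.smul ρ).add (hC₂cv.smul _)
  have hPU : P ⊆ j '' U := by
    rintro v ⟨_, ⟨a, ha, rfl⟩, _, ⟨b, hb, rfl⟩, rfl⟩
    exact hU'cv (hC₁U ha) hb.1 hρ0.le (by linarith) (by ring)
  have heP : e ∉ P := by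
    rintro ⟨_, ⟨a, ha, rfl⟩, _, ⟨b, hb, rfl⟩, hab⟩
    have hmem : e ∈ openSegment ℝ a b := ⟨ρ, 1 - ρ, hρ0, by linarith, by ring, hab⟩
    exact heC₁ ((((mem_extremePoints.1 heE).2 a (hC₁U ha) b hb.1) hmem).1 ▸ ha)
  set Dr := convexHull ℝ (C₁ ∪ P) with hDr
  obtain ⟨φ, u, hφ, hφe⟩ := geometric_hahn_banach_closed_point (convex_convexHull ℝ _)
    (compact_convexHull_union hC₁cpt hC₁cv hPcpt hPcv).isClosed
    (extreme_not_mem_convexHull_union heE hC₁cv hPcv hC₁U hPU heC₁ heP)
  have hslice : ∀ v ∈ U, u ≤ φ (j v) → ‖v - x₀.1‖ ≤ c / 4 := by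
    intro v hv hvu
    rcases C₁.eq_empty_or_nonempty with h1 | h1
    · have h := hcover ⟨v, hv, rfl⟩
      rw [h1, empty_union, hC₂cv.convexHull_eq] at h
      obtain ⟨w', hw', hvw⟩ := h.2
      rw [j.injective hvw, mem_closedBall, dist_eq_norm] at hw'
      linarith
    rcases C₂.eq_empty_or_nonempty with h2 | h2
    · have h := hcover ⟨v, hv, rfl⟩
      rw [h2, union_empty, hC₁cv.convexHull_eq] at h
      exact absurd (hφ _ (subset_convexHull ℝ _ (Or.inl h))) (not_lt.2 hvu)
    have h := hcover ⟨v, hv, rfl⟩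
    rw [hC₁cv.convexHull_union hC₂cv h1 h2] at h
    obtain ⟨a, ha, b, hb, l, m, hl, hm, hlm, hlmv⟩ := mem_convexJoin.1 h
    rcases lt_or_ge l ρ with hlρ | hlρ
    · obtain ⟨a', ha', rfl⟩ := hC₁U ha
      obtain ⟨b', hb', rfl⟩ := hb.2
      rw [← map_smul, ← map_smul, ← map_add] at hlmv
      rw [← j.injective hlmv]
      have ha'' : ‖a' - x₀.1‖ ≤ |R| + ‖x₀.1‖ + 1 := by
        linarith [norm_sub_le a' x₀.1, hR a' (hUC ha'), le_abs_self R]
      rw [mem_closedBall, dist_eq_norm] at hb'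
      have heq : l • a' + m • b' - x₀.1 = l • (a' - x₀.1) + m • (b' - x₀.1) := by
        rw [smul_sub, smul_sub, sub_add_sub_comm, ← add_smul, hlm, one_smul]
      rw [heq]
      refine (norm_add_le _ _).trans ?_
      rw [norm_smul, norm_smul, Real.norm_eq_abs, Real.norm_eq_abs, abs_of_nonneg hl,
        abs_of_nonneg hm]
      have h3 : l * ‖a' - x₀.1‖ ≤ c / 8 := by
        refine (mul_le_mul hlρ.le ha'' (norm_nonneg _) hρ0.le).trans ?_
        exact (le_div_iff₀ (by positivity)).1 (min_le_right _ _)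
      have h4 : m * ‖b' - x₀.1‖ ≤ c / 8 :=
        (mul_le_mul (by linarith : m ≤ 1) hb' (norm_nonneg _) zero_le_one).trans_eq (one_mul _)
      linarith
    · exfalso
      have hmem : j v ∈ Dr := by
        have h1ρ : (0 : ℝ) < 1 - ρ := by linarith
        rw [← hlmv]
        have heq : l • a + m • b
            = ((l - ρ) / (1 - ρ)) • a + (m / (1 - ρ)) • (ρ • a + (1 - ρ) • b) := by
          rw [smul_add, smul_smul, smul_smul, ← add_assoc, ← add_smul]
          congr 2
          · rw [← sub_eq_zero]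
            field_simp
            linear_combination (-ρ) * hlm
          · field_simp
        rw [heq]
        have haD : a ∈ Dr := subset_convexHull ℝ (C₁ ∪ P) (Or.inl ha)
        have habD : ρ • a + (1 - ρ) • b ∈ Dr :=
          subset_convexHull ℝ (C₁ ∪ P) (Or.inr (show ρ • a + (1 - ρ) • b ∈ P from
            Set.add_mem_add (smul_mem_smul_set ha) (smul_mem_smul_set hb)))
        have hsum : (l - ρ) / (1 - ρ) + m / (1 - ρ) = 1 := by
          rw [← add_div, div_eq_one_iff_eq h1ρ.ne']; linarith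
        exact (convex_convexHull ℝ (C₁ ∪ P)) haD habD
          (div_nonneg (by linarith) h1ρ.le) (div_nonneg hm h1ρ.le) hsum
      exact absurd (hφ _ hmem) (not_lt.2 hvu)
  have hrange : ∀ t, M t ∈ U := fun t => subset_closure (subset_convexHull ℝ _ ⟨t, rfl⟩)
  obtain ⟨t, ht⟩ : ∃ t, u < φ (j (M t)) := by
    by_contra hcon
    simp only [not_exists, not_lt] at hcon
    have hsub : j '' U ⊆ {v | φ v ≤ u} := by
      rw [hU, (convex_convexHull ℝ _).toWeakSpace_closure ℝ]
      refine closure_minimal ?_ (isClosed_le φ.continuous continuous_const)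
      have himg : j '' convexHull ℝ (range M) = convexHull ℝ (j '' range M) :=
        LinearMap.image_convexHull (j : X →ₗ[ℝ] WeakSpace ℝ X) _
      rw [himg]
      refine convexHull_min ?_ (convex_halfSpace_le φ.toLinearMap.isLinear _)
      rintro _ ⟨_, ⟨t, rfl⟩, rfl⟩
      exact hcon t
    exact absurd (hsub (extremePoints_subset heE)) (not_le.2 hφe)
  obtain ⟨k, hk, hkt⟩ : ∃ k ∈ kids t, φ (j (M t)) ≤ φ (j (M k)) := by
    by_contra hcon
    simp only [not_exists, not_and, not_le] at hcon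
    have hne : (kids t).Nonempty := by
      rcases (kids t).eq_empty_or_nonempty with h | h
      · simpa [h] using hw1 t
      · exact h
    obtain ⟨k₁, hk₁, hk₁pos⟩ : ∃ k ∈ kids t, 0 < w t k := Finset.exists_lt_of_sum_lt (by
      rw [hw1 t, Finset.sum_const_zero]; exact one_pos)
    have h := Finset.sum_lt_sum (s := kids t)
      (f := fun k => w t k * φ (j (M k))) (g := fun k => w t k * φ (j (M t)))
      (fun k hk => mul_le_mul_of_nonneg_left (hcon k hk).le (hw0 t k hk))
      ⟨k₁, hk₁, mul_lt_mul_of_pos_left (hcon k₁ hk₁) hk₁pos⟩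
    rw [← Finset.sum_mul, hw1 t, one_mul] at h
    have he : φ (j (M t)) = ∑ k ∈ kids t, w t k * φ (j (M k)) := by
      conv_lhs => rw [← hmean t]
      simp only [map_sum, map_smul, smul_eq_mul]
    linarith
  have h1 := hslice _ (hrange t) ht.le
  have h2 := hslice _ (hrange k) (ht.le.trans hkt)
  have h3 := hjump t k hk
  have h4 : ‖M k - M t‖ ≤ ‖M k - x₀.1‖ + ‖M t - x₀.1‖ := by
    calc ‖M k - M t‖ = ‖(M k - x₀.1) - (M t - x₀.1)‖ := by congr 1; abel
      _ ≤ _ := norm_sub_le _ _
  linarith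

end Vale.Agent.P079
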