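import Vale.Agent.P079.Uniform
import Mathlib.Analysis.LocallyConvex.WeakSpace
import Mathlib.Analysis.Normed.Module.DoubleDual
import Mathlib.Analysis.Normed.Module.HahnBanach
import Mathlib.Analysis.Normed.Module.Convex
import Mathlib.Analysis.Normed.Operator.BanachSteinhaus
import Mathlib.Topology.MetricSpace.Contracting
import Mathlib.Order.Filter.Ultrafilter.Basic
import Mathlib.Order.Zorn

/-!
Convex compactness, weak limits along an ultrafilter, minimal invariant sets of nonexpansive maps.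
-/

namespace Vale.Agent.P079

open Set Metric Filter
open scoped Topology

variable {X : Type*} [NormedAddCommGroup X] [NormedSpace ℝ X]

/-- Downwards directed nonempty closed convex subsets of `C` have a common point. -/
def ConvexCompact (C : Set X) : Prop :=
  ∀ 𝒦 : Set (Set X), 𝒦.Nonempty → (∀ A ∈ 𝒦, ∀ B ∈ 𝒦, ∃ D ∈ 𝒦, D ⊆ A ∧ D ⊆ B) →
    (∀ A ∈ 𝒦, A ⊆ C ∧ A.Nonempty ∧ IsClosed A ∧ Convex ℝ A) → ∃ x, ∀ A ∈ 𝒦, x ∈ A

lemma ConvexCompact.subset {C D : Set X} (h : ConvexCompact C) (hD : D ⊆ C) : ConvexCompact D :=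
  fun 𝒦 hne hdir hK => h 𝒦 hne hdir fun A hA => ⟨(hK A hA).1.trans hD, (hK A hA).2⟩

/-- Bounded closed convex sets of spaces isomorphic to uniformly convex ones. -/
lemma convexCompact_of_uniform {Y : Type*} [NormedAddCommGroup Y] [NormedSpace ℝ Y]
    [CompleteSpace Y] [UniformConvexSpace Y] (e : X ≃L[ℝ] Y) {C : Set X}
    (hbd : Bornology.IsBounded C) : ConvexCompact C := by
  intro 𝒦 hne hdir hK
  obtain ⟨R, hR⟩ := isBounded_iff_forall_norm_le.1 hbd
  obtain ⟨y, hy⟩ := inter_nonempty ((fun A => e '' A) '' 𝒦) (hne.image _) (by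
      rintro _ ⟨A, hA, rfl⟩ _ ⟨B, hB, rfl⟩
      obtain ⟨D, hD, hDA, hDB⟩ := hdir A hA B hB
      exact ⟨e '' D, ⟨D, hD, rfl⟩, Set.image_mono hDA, Set.image_mono hDB⟩) (by
      rintro _ ⟨A, hA, rfl⟩
      obtain ⟨-, h1, h2, h3⟩ := hK A hA
      exact ⟨h1.image _, e.toHomeomorph.isClosedMap A h2, h3.linear_image (e : X →ₗ[ℝ] Y)⟩)
    (R := ‖(e : X →L[ℝ] Y)‖ * R) (by
      rintro _ ⟨A, hA, rfl⟩ _ ⟨x, hx, rfl⟩
      exact ((e : X →L[ℝ] Y).le_opNorm x).trans
        (mul_le_mul_of_nonneg_left (hR x ((hK A hA).1 hx)) (norm_nonneg _)))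
  refine ⟨e.symm y, fun A hA => ?_⟩
  obtain ⟨x, hx, hxy⟩ := hy _ ⟨A, hA, rfl⟩
  rw [← hxy, e.symm_apply_apply]
  exact hx

lemma isClosed_of_weaklyCompact {C : Set X} (h : IsCompact (toWeakSpace ℝ X '' C)) :
    IsClosed C := by
  have hc := h.isClosed.preimage (toWeakSpaceCLM ℝ X).continuous
  have he : toWeakSpaceCLM ℝ X ⁻¹' (toWeakSpace ℝ X '' C) = C :=
    Set.preimage_image_eq C (toWeakSpace ℝ X).injective
  rwa [he] at hc

lemma isBounded_of_weaklyCompact {C : Set X} (h : IsCompact (toWeakSpace ℝ X '' C)) :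
    Bornology.IsBounded C := by
  have hpt : ∀ φ : StrongDual ℝ X, ∃ M, ∀ x : C,
      ‖NormedSpace.inclusionInDoubleDual ℝ X x φ‖ ≤ M := fun φ => by
    have hcont : Continuous fun x : WeakSpace ℝ X => φ ((toWeakSpace ℝ X).symm x) :=
      WeakBilin.eval_continuous (topDualPairing ℝ X).flip φ
    obtain ⟨M, hM⟩ := h.exists_bound_of_continuousOn hcont.continuousOn
    refine ⟨M, fun x => ?_⟩
    simpa using hM _ ⟨x.1, x.2, rfl⟩
  obtain ⟨M, hM⟩ := banach_steinhaus hpt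
  refine isBounded_iff_forall_norm_le.2 ⟨M, fun x hx => ?_⟩
  rw [← (NormedSpace.inclusionInDoubleDualLi (E := X) ℝ).norm_map x]
  exact hM ⟨x, hx⟩

/-- Weakly compact sets. -/
lemma convexCompact_of_weaklyCompact {C : Set X} (h : IsCompact (toWeakSpace ℝ X '' C)) :
    ConvexCompact C := by
  intro 𝒦 hne hdir hK
  obtain ⟨A₀, hA₀⟩ := hne
  have hclosed : ∀ A ∈ 𝒦, IsClosed (toWeakSpace ℝ X '' A) := fun A hA => by
    rw [← (hK A hA).2.2.1.closure_eq, (hK A hA).2.2.2.toWeakSpace_closure ℝ]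
    exact isClosed_closure
  haveI : Nonempty 𝒦 := ⟨⟨A₀, hA₀⟩⟩
  obtain ⟨w, hw⟩ := IsCompact.nonempty_iInter_of_directed_nonempty_isCompact_isClosed
    (fun A : 𝒦 => toWeakSpace ℝ X '' A.1) (fun A B => by
      obtain ⟨D, hD, hDA, hDB⟩ := hdir A.1 A.2 B.1 B.2
      exact ⟨⟨D, hD⟩, Set.image_mono hDA, Set.image_mono hDB⟩)
    (fun A => (hK A.1 A.2).2.1.image _)
    (fun A => h.of_isClosed_subset (hclosed A.1 A.2) (Set.image_mono (hK A.1 A.2).1))
    (fun A => hclosed A.1 A.2)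
  refine ⟨(toWeakSpace ℝ X).symm w, fun A hA => ?_⟩
  obtain ⟨x, hx, hxw⟩ := mem_iInter.1 hw ⟨A, hA⟩
  rw [← hxw, LinearEquiv.symm_apply_apply]
  exact hx

/-- `p` is the weak limit of `f` along a fixed nonprincipal ultrafilter. -/
def IsWlim (f : ℕ → X) (p : X) : Prop :=
  ∀ φ : X →L[ℝ] ℝ, Tendsto (fun n => φ (f n)) (hyperfilter ℕ) (𝓝 (φ p))

lemma exists_wlim {C : Set X} (hcc : ConvexCompact C) (hcl : IsClosed C) (hcv : Convex ℝ C)
    (hbd : Bornology.IsBounded C) {f : ℕ → X} (hf : ∀ n, f n ∈ C) :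
    ∃ p ∈ C, IsWlim f p := by
  obtain ⟨R, hR⟩ := isBounded_iff_forall_norm_le.1 hbd
  let hull : Set ℕ → Set X := fun A => closure (convexHull ℝ (f '' A))
  have hsub : ∀ A, hull A ⊆ C := fun A => closure_minimal (convexHull_min (by
    rintro _ ⟨n, -, rfl⟩
    exact hf n) hcv) hcl
  obtain ⟨p, hp⟩ := hcc (hull '' {A | A ∈ hyperfilter ℕ}) (Set.Nonempty.image _ ⟨univ, univ_mem⟩)
    (by
      rintro _ ⟨A, hA, rfl⟩ _ ⟨B, hB, rfl⟩
      exact ⟨hull (A ∩ B), ⟨_, inter_mem hA hB, rfl⟩,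
        closure_mono (convexHull_mono (Set.image_mono inter_subset_left)),
        closure_mono (convexHull_mono (Set.image_mono inter_subset_right))⟩) (by
      rintro _ ⟨A, hA, rfl⟩
      exact ⟨hsub A, (((Ultrafilter.nonempty_of_mem hA).image f).mono
        (subset_convexHull ℝ _)).closure, isClosed_closure, (convex_convexHull ℝ _).closure⟩)
  refine ⟨p, hsub _ (hp _ ⟨univ, univ_mem, rfl⟩), fun φ => ?_⟩
  obtain ⟨L, -, hL⟩ := (isCompact_closedBall (0 : ℝ) (‖φ‖ * R)).ultrafilter_le_nhds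
    ((hyperfilter ℕ).map fun n => φ (f n)) (by
      rw [Ultrafilter.coe_map, le_principal_iff, Filter.mem_map]
      refine univ_mem' fun n => ?_
      simpa using φ.le_opNorm_of_le (hR _ (hf n)))
  suffices φ p = L by rw [this]; exact hL
  refine eq_of_forall_dist_le fun ε hε => ?_
  have hA : (fun n => φ (f n)) ⁻¹' closedBall L ε ∈ hyperfilter ℕ :=
    hL (closedBall_mem_nhds L hε)
  have h : hull ((fun n => φ (f n)) ⁻¹' closedBall L ε) ⊆ φ ⁻¹' closedBall L ε :=
    closure_minimal (convexHull_min (by rintro _ ⟨n, hn, rfl⟩; exact hn)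
      ((convex_closedBall L ε).linear_preimage φ.toLinearMap))
      (isClosed_closedBall.preimage φ.continuous)
  exact h (hp _ ⟨_, hA, rfl⟩)

/-- Norms are lower semicontinuous for weak limits. -/
lemma IsWlim.norm_le {f : ℕ → X} {p c : X} {r : ℝ} (h : IsWlim f p)
    (hr : ∀ᶠ n in (hyperfilter ℕ : Filter ℕ), ‖f n - c‖ ≤ r) : ‖p - c‖ ≤ r := by
  obtain ⟨g, hg, hgp⟩ := exists_dual_vector'' ℝ (p - c)
  simp only [RCLike.ofReal_real_eq_id, id_eq] at hgp
  rw [← hgp, map_sub]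
  refine le_of_tendsto ((h g).sub_const (g c)) (hr.mono fun n hn => ?_)
  rw [← map_sub]
  exact (le_abs_self _).trans ((g.le_opNorm _).trans
    ((mul_le_mul hg hn (norm_nonneg _) zero_le_one).trans_eq (one_mul r)))

/-- Every invariant convexly compact set holds a minimal one. -/
lemma exists_minimal_invariant {C : Set X} (hcc : ConvexCompact C) (hne : C.Nonempty)
    (hcl : IsClosed C) (hcv : Convex ℝ C) {T : X → X} (hT : MapsTo T C C) :
    ∃ K ⊆ C, K.Nonempty ∧ IsClosed K ∧ Convex ℝ K ∧ MapsTo T K K ∧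
      ∀ D ⊆ K, D.Nonempty → IsClosed D → Convex ℝ D → MapsTo T D D → D = K := by
  let S : Set (Set X) := {D | D ⊆ C ∧ D.Nonempty ∧ IsClosed D ∧ Convex ℝ D ∧ MapsTo T D D}
  obtain ⟨K, hKC, ⟨-, hKne, hKcl, hKcv, hKT⟩, hmin⟩ :=
    zorn_superset_nonempty S (fun c hc hchain hcne => by
      obtain ⟨A₀, hA₀⟩ := hcne
      obtain ⟨x, hx⟩ := hcc c ⟨A₀, hA₀⟩ (fun A hA B hB => by
          rcases hchain.total hA hB with h | h
          · exact ⟨A, hA, subset_rfl, h⟩
          · exact ⟨B, hB, h, subset_rfl⟩)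
        (fun A hA => ⟨(hc hA).1, (hc hA).2.1, (hc hA).2.2.1, (hc hA).2.2.2.1⟩)
      refine ⟨⋂₀ c, ⟨(sInter_subset_of_mem hA₀).trans (hc hA₀).1, ⟨x, fun A hA => hx A hA⟩,
        isClosed_sInter fun A hA => (hc hA).2.2.1, convex_sInter fun A hA => (hc hA).2.2.2.1,
        fun y hy A hA => (hc hA).2.2.2.2 (hy A hA)⟩, fun A hA => sInter_subset_of_mem hA⟩)
      C ⟨subset_rfl, hne, hcl, hcv, hT⟩
  exact ⟨K, hKC, hKne, hKcl, hKcv, hKT, fun D hD h1 h2 h3 h4 =>
    subset_antisymm hD (hmin ⟨hD.trans hKC, h1, h2, h3, h4⟩ hD)⟩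

/-- In a minimal invariant set, almost fixed points are almost a diameter away from every point
(the Goebel-Karlovitz lemma, in a uniform form). -/
lemma almost_fixed_far {K : Set X} (hKne : K.Nonempty) (hKcl : IsClosed K)
    (hKbd : Bornology.IsBounded K) (hKcv : Convex ℝ K) (hcc : ConvexCompact K) {T : X → X}
    (hT : MapsTo T K K) (hn : ∀ a ∈ K, ∀ b ∈ K, ‖T a - T b‖ ≤ ‖a - b‖)
    (hmin : ∀ D ⊆ K, D.Nonempty → IsClosed D → Convex ℝ D → MapsTo T D D → D = K)
    {a : X} (ha : a ∈ K) {r : ℝ} (hr : r < diam K) :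
    ∃ η > 0, ∀ x ∈ K, ‖T x - x‖ ≤ η → r < ‖x - a‖ := by
  by_contra hcon
  simp only [gt_iff_lt, not_exists, not_and, not_forall, not_lt, exists_prop] at hcon
  choose x hxK hxT hxa using fun n : ℕ => hcon (1 / ((n : ℝ) + 1)) (by positivity)
  let S : Set X := {b | b ∈ K ∧ ∀ η : ℝ, 0 < η → ∃ N, ∀ n ≥ N, ‖x n - b‖ ≤ r + η}
  have hS : S = K := by
    refine hmin S (fun b hb => hb.1) ⟨a, ha, fun η hη => ⟨0, fun n _ => by linarith [hxa n]⟩⟩
      ?_ ?_ ?_
    · refine isClosed_of_closure_subset fun b hb => ⟨?_, fun η hη => ?_⟩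
      · exact hKcl.closure_subset_iff.2 (fun v hv => hv.1) hb
      · obtain ⟨b', hb', hbb⟩ := Metric.mem_closure_iff.1 hb (η / 2) (by linarith)
        obtain ⟨N, hN⟩ := hb'.2 (η / 2) (by linarith)
        refine ⟨N, fun n hnN => ?_⟩
        rw [dist_eq_norm] at hbb
        calc ‖x n - b‖ = ‖(x n - b') - (b - b')‖ := by congr 1; abel
          _ ≤ ‖x n - b'‖ + ‖b - b'‖ := norm_sub_le _ _
          _ ≤ r + η := by linarith [hN n hnN]
    · intro b hb c hc p q hp hq hpq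
      refine ⟨hKcv hb.1 hc.1 hp hq hpq, fun η hη => ?_⟩
      obtain ⟨N, hN⟩ := hb.2 η hη
      obtain ⟨M, hM⟩ := hc.2 η hη
      refine ⟨max N M, fun n hnn => ?_⟩
      have h1 := hN n (le_trans (le_max_left _ _) hnn)
      have h2 := hM n (le_trans (le_max_right _ _) hnn)
      have heq : x n - (p • b + q • c) = p • (x n - b) + q • (x n - c) := by
        rw [smul_sub, smul_sub, sub_add_sub_comm, ← add_smul, hpq, one_smul]
      rw [heq]
      refine (norm_add_le _ _).trans ?_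
      rw [norm_smul, norm_smul, Real.norm_eq_abs, Real.norm_eq_abs, abs_of_nonneg hp,
        abs_of_nonneg hq]
      have h3 : p * (r + η) + q * (r + η) = r + η := by rw [← add_mul, hpq, one_mul]
      linarith [mul_le_mul_of_nonneg_left h1 hp, mul_le_mul_of_nonneg_left h2 hq]
    · intro b hb
      refine ⟨hT hb.1, fun η hη => ?_⟩
      obtain ⟨N, hN⟩ := hb.2 (η / 2) (by linarith)
      obtain ⟨M, hM⟩ := exists_nat_one_div_lt (show (0 : ℝ) < η / 2 by linarith)
      refine ⟨max N M, fun n hnn => ?_⟩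
      have h1 := hN n (le_trans (le_max_left _ _) hnn)
      have h2 : 1 / ((n : ℝ) + 1) ≤ 1 / ((M : ℝ) + 1) :=
        Nat.one_div_le_one_div (le_trans (le_max_right _ _) hnn)
      calc ‖x n - T b‖ = ‖(T (x n) - T b) - (T (x n) - x n)‖ := by congr 1; abel
        _ ≤ ‖T (x n) - T b‖ + ‖T (x n) - x n‖ := norm_sub_le _ _
        _ ≤ r + η := by linarith [hn _ (hxK n) _ hb.1, hxT n]
  obtain ⟨p, hpK, hp⟩ := exists_wlim hcc hKcl hKcv hKbd hxK
  have hpr : ∀ b ∈ K, ‖p - b‖ ≤ r := by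
    intro b hb
    refine le_of_forall_pos_le_add fun η hη => ?_
    obtain ⟨N, hN⟩ := ((hS.symm ▸ hb : b ∈ S)).2 η hη
    exact hp.norm_le ((eventually_ge_atTop N).filter_mono Nat.hyperfilter_le_atTop |>.mono hN)
  have hhull : closure (convexHull ℝ (T '' K)) = K := by
    have hsub : closure (convexHull ℝ (T '' K)) ⊆ K :=
      closure_minimal (convexHull_min hT.image_subset hKcv) hKcl
    exact hmin _ hsub ((hKne.image T).mono (subset_convexHull ℝ _)).closure isClosed_closure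
      (convex_convexHull ℝ _).closure
      (fun v hv => subset_closure (subset_convexHull ℝ _ ⟨v, hsub hv, rfl⟩))
  let Cr : Set X := K ∩ ⋂ b ∈ K, closedBall b r
  have hCr : Cr = K := by
    refine hmin Cr inter_subset_left ⟨p, hpK, mem_iInter₂.2 fun b hb => ?_⟩
      (hKcl.inter (isClosed_biInter fun b _ => isClosed_closedBall))
      (hKcv.inter (convex_iInter₂ fun b _ => convex_closedBall b r)) ?_
    · rw [mem_closedBall, dist_eq_norm]
      exact hpr b hb
    · rintro c ⟨hcK, hc⟩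
      refine ⟨hT hcK, mem_iInter₂.2 fun b hb => ?_⟩
      have h : closure (convexHull ℝ (T '' K)) ⊆ closedBall (T c) r :=
        closure_minimal (convexHull_min (by
          rintro _ ⟨v, hv, rfl⟩
          have h1 := mem_iInter₂.1 hc v hv
          rw [mem_closedBall, dist_eq_norm] at h1 ⊢
          rw [norm_sub_rev]
          exact (hn c hcK v hv).trans h1) (convex_closedBall _ _)) isClosed_closedBall
      rw [mem_closedBall']
      exact h (hhull.symm ▸ hb)
  have hr0 : 0 ≤ r := (norm_nonneg _).trans (hpr p hpK)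
  have : diam K ≤ r := diam_le_of_forall_dist_le hr0 fun u hu v hv =>
    mem_iInter₂.1 (hCr.symm ▸ hu : u ∈ Cr).2 v hv
  linarith

/-- The fixed points of the maps `x ↦ l T x + (1 - l) p`. -/
lemma exists_resolvent [CompleteSpace X] {K : Set X} (hKcl : IsClosed K) (hKcv : Convex ℝ K)
    {T : X → X} (hT : MapsTo T K K) (hn : ∀ a ∈ K, ∀ b ∈ K, ‖T a - T b‖ ≤ ‖a - b‖)
    {l : ℝ} (hl0 : 0 ≤ l) (hl1 : l < 1) :
    ∃ u : X → X, ∀ p ∈ K, u p ∈ K ∧ u p = l • T (u p) + (1 - l) • p := by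
  have h : ∀ p ∈ K, ∃ x ∈ K, x = l • T x + (1 - l) • p := by
    intro p hp
    have hmaps : MapsTo (fun x => l • T x + (1 - l) • p) K K := fun x hx =>
      hKcv (hT hx) hp hl0 (by linarith) (by ring)
    have hc : ContractingWith ⟨l, hl0⟩ (hmaps.restrict (fun x => l • T x + (1 - l) • p) K K) := by
      refine ⟨by exact_mod_cast hl1, LipschitzWith.of_dist_le_mul fun a b => ?_⟩
      simp only [Subtype.dist_eq, dist_eq_norm, MapsTo.val_restrict_apply,
        add_sub_add_right_eq_sub, ← smul_sub, norm_smul, Real.norm_eq_abs, abs_of_nonneg hl0]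
      exact mul_le_mul_of_nonneg_left (hn _ a.2 _ b.2) hl0
    obtain ⟨y, hy, hfix, -⟩ :=
      hc.exists_fixedPoint' hKcl.isComplete hmaps hp (edist_ne_top _ _)
    exact ⟨y, hy, hfix.symm⟩
  classical
  choose u hu hu' using h
  exact ⟨fun p => if hp : p ∈ K then u p hp else p, fun p hp => by
    simp only [dif_pos hp]; exact ⟨hu p hp, hu' p hp⟩⟩

end Vale.Agent.P079
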