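import Vale.Agent.P079.Compact
import Mathlib.Analysis.Convex.Gauge
import Mathlib.Tactic.FieldSimp

/-!
Weakly null trees of normalised increments, and the fixed point theorem for spaces with an
asymptotic gain over the triangle inequality.
-/

namespace Vale.Agent.P079

open Set Metric Filter
open scoped Topology Pointwise

variable {X : Type*} [NormedAddCommGroup X] [NormedSpace ℝ X]
variable {Y : Type*} [NormedAddCommGroup Y] [NormedSpace ℝ Y]

lemma mem_scale {K : Set X} (hK : Convex ℝ K) (h0 : (0 : X) ∈ K) {a b : ℝ} (ha : 0 ≤ a)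
    (hab : a ≤ b) {x : X} (hx : x ∈ a • K) : x ∈ b • K := by
  obtain ⟨y, hy, rfl⟩ := mem_smul_set.1 hx
  rcases (ha.trans hab).eq_or_lt with hb | hb
  · exact mem_smul_set.2 ⟨y, hy, by rw [le_antisymm (hab.trans hb.ge) ha, ← hb]⟩
  · exact mem_smul_set.2 ⟨(a / b) • y,
      hK.smul_mem_of_zero_mem h0 hy ⟨div_nonneg ha hb.le, (div_le_one hb).2 hab⟩,
      by rw [smul_smul, mul_div_cancel₀ a hb.ne']⟩

lemma add_mem_scale {K : Set X} (hK : Convex ℝ K) {a b : ℝ} (ha : 0 ≤ a) (hb : 0 ≤ b) {x y : X}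
    (hx : x ∈ a • K) (hy : y ∈ b • K) : x + y ∈ (a + b) • K := by
  rw [hK.add_smul ha hb]
  exact Set.add_mem_add hx hy

lemma mem_of_mem_scale {K : Set X} (hK : Convex ℝ K) (h0 : (0 : X) ∈ K) {a : ℝ} (ha : 0 ≤ a)
    (ha1 : a ≤ 1) {x : X} (hx : x ∈ a • K) : x ∈ K := by
  simpa using mem_scale hK h0 ha ha1 hx

lemma apply_le_norm {g : X →L[ℝ] ℝ} (hg : ‖g‖ ≤ 1) (x : X) : g x ≤ ‖x‖ :=
  (le_abs_self _).trans <| (g.le_opNorm x).trans
    ((mul_le_mul_of_nonneg_right hg (norm_nonneg x)).trans_eq (one_mul _))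

/-- A branch of the tree of normalised increments: its sum is small in the second norm, but
large for every functional that almost norms the value at the end of the branch. -/
lemma branch (e : X →L[ℝ] Y) {R B : ℝ} (hR : 0 < R) (hB : 0 < B) (heB : ∀ x, ‖e x‖ ≤ B * ‖x‖)
    (hQ : ∀ a : Y, ‖a‖ ≤ 1 → ∃ Ψ : Finset (Y →L[ℝ] ℝ), ∃ ε > 0,
      ∀ b : Y, ‖b‖ ≤ 1 → (∀ ψ ∈ Ψ, |ψ b| ≤ ε) → ‖a + b‖ ≤ R)
    {K : Set X} (hK : Convex ℝ K) (h0 : (0 : X) ∈ K)
    (hW : ∀ f : ℕ → X, (∀ n, f n ∈ K) → ∃ p ∈ K, IsWlim f p)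
    {z : ℕ → X} (hz : ∀ n, z n ∈ K) (hz0 : IsWlim z 0) {v : X → X} (hvK : MapsTo v K K)
    (hv : ∀ p ∈ K, ∀ q ∈ K, ‖v p - v q‖ ≤ ‖p - q‖) {d δ : ℝ} (hd : 0 < d) (hδ : 0 ≤ δ)
    (hdiam : ∀ p ∈ K, ∀ q ∈ K, ‖p - q‖ ≤ d)
    (hvz : ∀ᶠ n in (hyperfilter ℕ : Filter ℕ), ‖v (z n) - z n‖ ≤ δ) :
    ∀ (l : ℕ) (s t : ℝ) (p : X), 0 < s → 0 ≤ t → t + 4 / 3 * s ≤ 1 → p ∈ t • K →
      12 * δ * 4 ^ (2 ^ l) ≤ s * d → ∀ (Φ : Finset (X →L[ℝ] ℝ)) (ε : ℝ), 0 < ε →
      ∃ (S p' : X) (t' : ℝ), 0 ≤ t' ∧ t' + 4 / 3 * (s / 4 ^ (2 ^ l)) ≤ 1 ∧ p' ∈ t' • K ∧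
        (∀ w ∈ (4 / 3 * (s / 4 ^ (2 ^ l))) • K, ∃ w' ∈ (4 / 3 * s) • K, p' + w = p + w') ∧
        ‖e S‖ ≤ R ^ l * (B * d) ∧ (∀ φ ∈ Φ, |φ S| ≤ ε) ∧
        ∀ w ∈ (4 / 3 * (s / 4 ^ (2 ^ l))) • K, ∀ g : X →L[ℝ] ℝ, ‖g‖ ≤ 1 →
          d - δ ≤ g (v (p' + w)) → 2 ^ l * (d / 2) ≤ g S
  | 0, s, t, p, hs, ht, hts, hp, hsm, Φ, ε, hε => by
    simp only [pow_zero, pow_one, one_mul] at hsm ⊢
    have hy : ∀ n, p + s • z n ∈ (t + s) • K := fun n =>
      add_mem_scale hK ht hs.le hp (smul_mem_smul_set (hz n))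
    have hyK : ∀ n, p + s • z n ∈ K := fun n =>
      mem_of_mem_scale hK h0 (by linarith) (by linarith) (hy n)
    obtain ⟨G, -, hG⟩ := hW (fun n => v (p + s • z n)) (fun n => hvK (hyK n))
    have hev : ∀ᶠ n in (hyperfilter ℕ : Filter ℕ),
        ∀ φ ∈ Φ, |φ (s⁻¹ • (v (p + s • z n) - G))| ≤ ε := by
      refine (Filter.eventually_all_finset Φ).2 fun φ _ => ?_
      have h := (((hG φ).sub_const (φ G)).const_mul s⁻¹).abs
      rw [sub_self, mul_zero, abs_zero] at h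
      refine (h.eventually_le_const hε).mono fun n hn => ?_
      simpa only [map_smul, map_sub, smul_eq_mul] using hn
    obtain ⟨n, hn⟩ := hev.exists
    have hnorm : ‖v (p + s • z n) - G‖ ≤ s * d := by
      rw [norm_sub_rev]
      refine hG.norm_le (Eventually.of_forall fun m => (hv _ (hyK m) _ (hyK n)).trans ?_)
      rw [add_sub_add_left_eq_sub, ← smul_sub, norm_smul, Real.norm_eq_abs, abs_of_pos hs]
      exact mul_le_mul_of_nonneg_left (hdiam _ (hz m) _ (hz n)) hs.le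
    refine ⟨s⁻¹ • (v (p + s • z n) - G), p + s • z n, t + s, by linarith, by linarith, hy n,
      fun w hw => ⟨s • z n + w, ?_, by abel⟩, ?_, hn, fun w hw g hg hgw => ?_⟩
    · convert add_mem_scale hK hs.le (by linarith : (0 : ℝ) ≤ 4 / 3 * (s / 4))
        (smul_mem_smul_set (hz n)) hw using 2
      ring
    · rw [map_smul, norm_smul, norm_inv, Real.norm_eq_abs, abs_of_pos hs,
        inv_mul_le_iff₀ hs]
      refine ((heB _).trans (mul_le_mul_of_nonneg_left hnorm hB.le)).trans_eq ?_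
      ring
    · obtain ⟨y, hy', rfl⟩ := mem_smul_set.1 hw
      have hwn : ‖(4 / 3 * (s / 4)) • y‖ ≤ s / 3 * d := by
        rw [norm_smul, Real.norm_eq_abs, abs_of_pos (by positivity)]
        have h := hdiam y hy' 0 h0
        rw [sub_zero] at h
        exact (mul_le_mul_of_nonneg_left h (by positivity)).trans_eq (by ring)
      have hq : p + s • z n + (4 / 3 * (s / 4)) • y ∈ K :=
        mem_of_mem_scale hK h0 (by linarith) (by linarith)
          (add_mem_scale hK (by linarith) (by linarith) (hy n) (smul_mem_smul_set hy'))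
      have hlow : d - δ - s / 3 * d ≤ g (v (p + s • z n)) := by
        have h1 := (apply_le_norm hg _).trans ((hv _ hq _ (hyK n)).trans (le_of_eq_of_le
          (by rw [add_sub_cancel_left]) hwn))
        rw [map_sub] at h1
        linarith
      have hup : g G ≤ δ + (1 - s) * d := by
        obtain ⟨u, hu, hup'⟩ := mem_smul_set.1 (mem_scale hK h0 ht (by linarith : t ≤ 1 - s) hp)
        have hlim := (hz0 g).add_const (δ + (1 - s) * d)
        rw [map_zero, zero_add] at hlim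
        refine le_of_tendsto_of_tendsto (hG g) hlim (hvz.mono fun m hm => ?_)
        have h1 : g (v (p + s • z m) - v (z m)) ≤ (1 - s) * d := by
          refine (apply_le_norm hg _).trans ((hv _ (hyK m) _ (hz m)).trans ?_)
          have heq : p + s • z m - z m = (1 - s) • (u - z m) := by
            rw [← hup', smul_sub, sub_smul 1 s (z m), one_smul]; abel
          rw [heq, norm_smul, Real.norm_eq_abs, abs_of_nonneg (by linarith)]
          exact mul_le_mul_of_nonneg_left (hdiam _ hu _ (hz m)) (by linarith)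
        have h2 := (apply_le_norm hg _).trans hm
        rw [map_sub] at h1 h2
        simp only
        linarith
      rw [map_smul, map_sub, smul_eq_mul, le_inv_mul_iff₀ hs]
      linarith
  | l + 1, s, t, p, hs, ht, hts, hp, hsm, Φ, ε, hε => by
    classical
    have hN : (4 : ℝ) ^ (2 ^ (l + 1)) = 4 ^ (2 ^ l) * 4 ^ (2 ^ l) := by
      rw [pow_succ 2 l, mul_two, pow_add]
    set N := (4 : ℝ) ^ (2 ^ l) with hNdef
    have hN1 : 1 ≤ N := one_le_pow₀ (by norm_num)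
    rw [hN] at hsm
    have hsm1 : 12 * δ * N ≤ s * d :=
      le_trans (mul_le_mul_of_nonneg_left (le_mul_of_one_le_left (by positivity) hN1)
        (by positivity)) hsm
    obtain ⟨SA, pA, tA, hA0, hA1, hpA, hAreach, hAn, hAφ, hAg⟩ :=
      branch e hR hB heB hQ hK h0 hW hz hz0 hvK hv hd hδ hdiam hvz l s t p hs ht hts hp hsm1 Φ
        (ε / 2) (by linarith)
    set c := R ^ l * (B * d) with hc
    have hc0 : 0 < c := by positivity
    obtain ⟨Ψ, ε', hε', hΨ⟩ := hQ (c⁻¹ • e SA) (by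
      rw [norm_smul, norm_inv, Real.norm_eq_abs, abs_of_pos hc0, inv_mul_le_one₀ hc0]
      exact hAn)
    have hsm2 : 12 * δ * N ≤ s / N * d := by
      rw [div_mul_eq_mul_div, le_div_iff₀ (by positivity), mul_assoc]
      exact hsm
    obtain ⟨SB, pB, tB, hB0, hB1, hpB, hBreach, hBn, hBφ, hBg⟩ :=
      branch e hR hB heB hQ hK h0 hW hz hz0 hvK hv hd hδ hdiam hvz l (s / N) tA pA
        (by positivity) hA0 hA1 hpA hsm2 (Φ ∪ Ψ.image fun ψ => ψ.comp e)
        (min (ε / 2) (ε' * c)) (lt_min (by linarith) (by positivity))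
    refine ⟨SA + SB, pB, tB, hB0, ?_, hpB, ?_, ?_, ?_, ?_⟩
    · rw [hN, ← div_div]; exact hB1
    · intro w hw
      rw [hN, ← div_div] at hw
      obtain ⟨w', hw', heq⟩ := hBreach w hw
      obtain ⟨w'', hw'', heq'⟩ := hAreach w' hw'
      exact ⟨w'', hw'', heq.trans heq'⟩
    · have h := hΨ (c⁻¹ • e SB) (by
          rw [norm_smul, norm_inv, Real.norm_eq_abs, abs_of_pos hc0, inv_mul_le_one₀ hc0]
          exact hBn) (fun ψ hψ => by
          have h := (hBφ _ (Finset.mem_union_right _ (Finset.mem_image_of_mem _ hψ))).trans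
            (min_le_right _ _)
          rw [map_smul, smul_eq_mul, abs_mul, abs_inv, abs_of_pos hc0, inv_mul_le_iff₀ hc0,
            mul_comm c]
          exact h)
      rw [← smul_add, norm_smul, norm_inv, Real.norm_eq_abs, abs_of_pos hc0,
        inv_mul_le_iff₀ hc0, ← map_add] at h
      refine h.trans_eq ?_
      rw [hc]; ring
    · intro φ hφ
      rw [map_add]
      refine (abs_add_le _ _).trans ?_
      linarith [hAφ φ hφ, (hBφ φ (Finset.mem_union_left _ hφ)).trans (min_le_left _ _)]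
    · intro w hw g hg hgw
      rw [hN, ← div_div] at hw
      obtain ⟨w', hw', heq⟩ := hBreach w hw
      have h1 := hAg w' hw' g hg (by rw [← heq]; exact hgw)
      have h2 := hBg w hw g hg hgw
      rw [map_add, pow_succ]
      linarith

/-- The fixed point theorem: a convexly compact domain, and a second norm with an asymptotic gain
over the triangle inequality. -/
theorem fixed_point_of_gain [CompleteSpace X] (e : X →L[ℝ] Y) {A : ℝ}
    (heA : ∀ x, ‖x‖ ≤ A * ‖e x‖) {R : ℝ} (hR2 : R < 2)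
    (hQ : ∀ a : Y, ‖a‖ ≤ 1 → ∃ Ψ : Finset (Y →L[ℝ] ℝ), ∃ ε > 0,
      ∀ b : Y, ‖b‖ ≤ 1 → (∀ ψ ∈ Ψ, |ψ b| ≤ ε) → ‖a + b‖ ≤ R)
    {C : Set X} (hne : C.Nonempty) (hcl : IsClosed C) (hbd : Bornology.IsBounded C)
    (hcv : Convex ℝ C) (hcc : ConvexCompact C) {T : X → X} (hT : MapsTo T C C)
    (hn : ∀ a ∈ C, ∀ b ∈ C, ‖T a - T b‖ ≤ ‖a - b‖) :
    ∃ x ∈ C, T x = x := by
  obtain ⟨K, hKC, hKne, hKcl, hKcv, hKT, hmin⟩ := exists_minimal_invariant hcc hne hcl hcv hT
  have hKbd := hbd.subset hKC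
  have hKcc := hcc.subset hKC
  have hKn : ∀ a ∈ K, ∀ b ∈ K, ‖T a - T b‖ ≤ ‖a - b‖ := fun a ha b hb =>
    hn a (hKC ha) b (hKC hb)
  obtain ⟨c, hc⟩ := hKne
  have hdist : ∀ a ∈ K, ∀ b ∈ K, ‖a - b‖ ≤ diam K := fun a ha b hb => by
    rw [← dist_eq_norm]; exact dist_le_diam_of_mem hKbd ha hb
  rcases diam_nonneg.eq_or_lt (b := diam K) with hd | hd
  · refine ⟨c, hKC hc, sub_eq_zero.1 (norm_le_zero_iff.1 ?_)⟩
    exact (hdist _ (hKT hc) c hc).trans hd.ge
  exfalso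
  set d := diam K
  set R' := max R 1 with hR'
  have hR'0 : 0 < R' := lt_max_of_lt_right one_pos
  have hR'2 : R' < 2 := max_lt hR2 one_lt_two
  set B := ‖e‖ + 1 with hB
  have hB0 : 0 < B := by positivity
  have heB : ∀ x, ‖e x‖ ≤ B * ‖x‖ := fun x =>
    (e.le_opNorm x).trans (mul_le_mul_of_nonneg_right (by linarith) (norm_nonneg x))
  set A' := max A 1 with hA'
  have hA'0 : 0 < A' := lt_max_of_lt_right one_pos
  obtain ⟨l, hl⟩ := exists_pow_lt_of_lt_one (show 0 < 1 / (2 * A' * B) by positivity)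
    (show R' / 2 < 1 by linarith)
  set δ := d / (24 * (4 : ℝ) ^ (2 ^ l)) with hδdef
  have hδ0 : 0 < δ := by positivity
  have hres : ∀ n : ℕ, ∃ x ∈ K, ‖T x - x‖ ≤ d * (1 / ((n : ℝ) + 1)) := by
    intro n
    have hl : 1 / ((n : ℝ) + 1) ≤ 1 := (div_le_one (by positivity)).2 (by simp)
    have hl' : 0 < 1 / ((n : ℝ) + 1) := by positivity
    obtain ⟨u, hu⟩ := exists_resolvent hKcl hKcv hKT hKn
      (l := 1 - 1 / ((n : ℝ) + 1)) (by linarith) (by linarith)
    obtain ⟨h1, h2⟩ := hu c hc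
    refine ⟨u c, h1, ?_⟩
    have h3 : T (u c) - u c = (1 / ((n : ℝ) + 1)) • (T (u c) - c) := by
      conv_lhs => arg 2; rw [h2]
      rw [sub_sub_cancel, sub_smul, one_smul, smul_sub]; abel
    rw [h3, norm_smul, Real.norm_eq_abs, abs_of_pos hl', mul_comm d]
    exact mul_le_mul_of_nonneg_left (hdist _ (hKT h1) c hc) hl'.le
  choose z hzK hzT using hres
  obtain ⟨a, haK, ha⟩ := exists_wlim hKcc hKcl hKcv hKbd hzK
  obtain ⟨η, hη, hfar⟩ := almost_fixed_far ⟨c, hc⟩ hKcl hKbd hKcv hKcc hKT hKn hmin haK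
    (show d - δ < d by linarith)
  set q := min (η / d) (1 / 2) with hq
  have hq0 : 0 < q := lt_min (by positivity) (by norm_num)
  have hq1 : q ≤ 1 / 2 := min_le_right _ _
  have hqd : q * d ≤ η := (le_div_iff₀ hd).1 (min_le_left _ _)
  obtain ⟨u, hu⟩ := exists_resolvent hKcl hKcv hKT hKn (l := 1 - q) (by linarith) (by linarith)
  have hu1 : ∀ p ∈ K, d - δ ≤ ‖u p - a‖ := fun p hp => by
    obtain ⟨h1, h2⟩ := hu p hp
    refine (hfar _ h1 ?_).le
    have h3 : T (u p) - u p = q • (T (u p) - p) := by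
      conv_lhs => arg 2; rw [h2]
      rw [sub_sub_cancel, sub_smul, one_smul, smul_sub]; abel
    rw [h3, norm_smul, Real.norm_eq_abs, abs_of_pos hq0]
    exact (mul_le_mul_of_nonneg_left (hdist _ (hKT h1) p hp) hq0.le).trans hqd
  have hu2 : ∀ p ∈ K, ∀ p' ∈ K, ‖u p - u p'‖ ≤ ‖p - p'‖ := fun p hp p' hp' => by
    obtain ⟨h1, h2⟩ := hu p hp
    obtain ⟨h1', h2'⟩ := hu p' hp'
    have h3 : u p - u p' = (1 - q) • (T (u p) - T (u p')) + q • (p - p') := by
      conv_lhs => rw [h2, h2']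
      simp only [sub_sub_cancel, smul_sub]; abel
    have h4 : ‖u p - u p'‖ ≤ (1 - q) * ‖u p - u p'‖ + q * ‖p - p'‖ := by
      conv_lhs => rw [h3]
      refine (norm_add_le _ _).trans ?_
      rw [norm_smul, norm_smul, Real.norm_eq_abs, Real.norm_eq_abs, abs_of_pos hq0,
        abs_of_nonneg (by linarith : (0 : ℝ) ≤ 1 - q)]
      gcongr
      · linarith
      · exact hKn _ h1 _ h1'
    by_contra hlt
    rw [not_le] at hlt
    nlinarith [mul_lt_mul_of_pos_left hlt hq0]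
  obtain ⟨N, hN⟩ := exists_nat_one_div_lt (show 0 < q * δ / d by positivity)
  have hu3 : ∀ n, N ≤ n → ‖u (z n) - z n‖ ≤ δ := fun n hn' => by
    obtain ⟨h1, h2⟩ := hu _ (hzK n)
    set x := u (z n)
    have h3 : x - z n = (1 - q) • ((T x - T (z n)) + (T (z n) - z n)) := by
      conv_lhs => rw [h2]
      simp only [sub_add_sub_cancel, sub_sub_cancel, smul_sub, sub_smul, one_smul]; abel
    have h4 : ‖x - z n‖ ≤ (1 - q) * (‖x - z n‖ + d * (1 / ((n : ℝ) + 1))) := by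
      conv_lhs => rw [h3]
      rw [norm_smul, Real.norm_eq_abs, abs_of_nonneg (by linarith : (0 : ℝ) ≤ 1 - q)]
      refine mul_le_mul_of_nonneg_left ((norm_add_le _ _).trans ?_) (by linarith)
      exact add_le_add (hKn _ h1 _ (hzK n)) (hzT n)
    have h5 : d * (1 / ((n : ℝ) + 1)) ≤ q * δ := by
      have h6 : 1 / ((n : ℝ) + 1) ≤ 1 / ((N : ℝ) + 1) := Nat.one_div_le_one_div hn'
      calc d * (1 / ((n : ℝ) + 1)) ≤ d * (q * δ / d) :=
            mul_le_mul_of_nonneg_left (h6.trans hN.le) hd.le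
        _ = q * δ := by field_simp
    have h7 : 0 ≤ d * (1 / ((n : ℝ) + 1)) := by positivity
    nlinarith
  have hW : ∀ f : ℕ → X, (∀ n, f n ∈ {x | a + x ∈ K}) → ∃ p ∈ {x | a + x ∈ K}, IsWlim f p := by
    intro f hf
    obtain ⟨p, hpK, hp⟩ := exists_wlim hKcc hKcl hKcv hKbd (f := fun n => a + f n) hf
    refine ⟨p - a, by simpa using hpK, fun φ => ?_⟩
    simpa using (hp φ).sub_const (φ a)
  have hz' : IsWlim (fun n => z n - a) 0 := fun φ => by
    simpa using (ha φ).sub_const (φ a)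
  have hQ' : ∀ y : Y, ‖y‖ ≤ 1 → ∃ Ψ : Finset (Y →L[ℝ] ℝ), ∃ ε > 0,
      ∀ b : Y, ‖b‖ ≤ 1 → (∀ ψ ∈ Ψ, |ψ b| ≤ ε) → ‖y + b‖ ≤ R' := fun y hy => by
    obtain ⟨Ψ, ε, hε, h⟩ := hQ y hy
    exact ⟨Ψ, ε, hε, fun b hb hψ => (h b hb hψ).trans (le_max_left _ _)⟩
  have hvK : MapsTo (fun p => u (a + p) - a) {x | a + x ∈ K} {x | a + x ∈ K} := fun p hp => by
    simpa using (hu _ hp).1
  obtain ⟨S, p', t', ht'0, ht'1, hp', -, hSn, -, hSg⟩ :=
    branch e hR'0 hB0 heB hQ' (hKcv.translate_preimage_right a) (by simpa using haK) hW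
      (z := fun n => z n - a) (fun n => by simpa using hzK n) hz'
      (v := fun p => u (a + p) - a) hvK
      (fun p hp p' hp' => by simpa using hu2 _ hp _ hp') hd hδ0.le
      (fun p hp p' hp' => by simpa using hdist _ hp _ hp')
      (((eventually_ge_atTop N).filter_mono Nat.hyperfilter_le_atTop).mono fun n hn' => by
        simpa using hu3 n hn')
      l (1 / 2) 0 0 (by norm_num) le_rfl (by norm_num)
      (mem_smul_set.2 ⟨0, by simpa using haK, smul_zero _⟩)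
      (by rw [hδdef]; field_simp; norm_num) ∅ 1 one_pos
  have hp'' : a + p' ∈ K := by
    have h4 : 0 ≤ 4 / 3 * (1 / 2 / (4 : ℝ) ^ (2 ^ l)) := by positivity
    exact mem_of_mem_scale (hKcv.translate_preimage_right a) (by simpa using haK) ht'0
      (by linarith) hp'
  obtain ⟨g, hg, hgp⟩ := exists_dual_vector'' ℝ (u (a + p') - a)
  simp only [RCLike.ofReal_real_eq_id, id_eq] at hgp
  have hlow := hSg 0 (mem_smul_set.2 ⟨0, by simpa using haK, smul_zero _⟩) g hg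
    (by rw [add_zero, hgp]; exact hu1 _ hp'')
  have hup : g S ≤ A' * (R' ^ l * (B * d)) := (apply_le_norm hg S).trans <| (heA S).trans <|
    (mul_le_mul_of_nonneg_right (le_max_left _ _) (norm_nonneg _)).trans
      (mul_le_mul_of_nonneg_left hSn hA'0.le)
  rw [div_pow, div_lt_div_iff₀ (by positivity) (by positivity)] at hl
  nlinarith [mul_lt_mul_of_pos_right hl hd]

/-- Uniformly convex norms have an asymptotic gain over the triangle inequality. -/
lemma gain_of_uniformConvex (Y : Type*) [NormedAddCommGroup Y] [NormedSpace ℝ Y]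
    [UniformConvexSpace Y] :
    ∃ R < (2 : ℝ), ∀ a : Y, ‖a‖ ≤ 1 → ∃ Ψ : Finset (Y →L[ℝ] ℝ), ∃ ε > 0,
      ∀ b : Y, ‖b‖ ≤ 1 → (∀ ψ ∈ Ψ, |ψ b| ≤ ε) → ‖a + b‖ ≤ R := by
  obtain ⟨δ, hδ, h⟩ := exists_forall_closed_ball_dist_add_le_two_sub Y
    (show (0 : ℝ) < 1 / 4 by norm_num)
  refine ⟨max (2 - δ) (3 / 2), max_lt (by linarith) (by norm_num), fun a ha => ?_⟩
  by_cases hsmall : ‖a‖ ≤ 1 / 2
  · refine ⟨∅, 1, one_pos, fun b hb _ => (norm_add_le a b).trans ?_⟩
    linarith [le_max_right (2 - δ) (3 / 2 : ℝ)]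
  obtain ⟨g, hg, hga⟩ := exists_dual_vector'' ℝ a
  simp only [RCLike.ofReal_real_eq_id, id_eq] at hga
  refine ⟨{g}, 1 / 4, by norm_num, fun b hb hψ => (h ha hb ?_).trans (le_max_left _ _)⟩
  have hb' := (le_abs_self _).trans (hψ g (Finset.mem_singleton_self g))
  have h1 := apply_le_norm hg (a - b)
  rw [map_sub, hga] at h1
  linarith

end Vale.Agent.P079
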