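import Vale.Agent.P079.Step
import Vale.Agent.P079.Bush

/-!
Every reflexive space has the fixed point property for nonexpansive maps.
-/

namespace Vale.Agent.P079

open Set Metric Filter Finset
open scoped Topology Pointwise

variable {X : Type*} [NormedAddCommGroup X] [NormedSpace ℝ X] [CompleteSpace X]

/-- A frame cannot exist when closed balls are weakly compact. -/
theorem no_frame (hball : ∀ R : ℝ, IsCompact (toWeakSpace ℝ X '' closedBall 0 R)) {K L : Set X}
    {T : X → X} {d : ℝ} {u : ℕ → X → X} {W : X → X} (hF : Frame K L T d u W)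
    (hL : L.Nonempty) : False := by
  classical
  have hd := hF.dpos
  obtain ⟨l₀, hl₀⟩ := hL
  have hroot : Good K L T d (⟨1, 1, id, l₀, 0, l₀⟩ : Node X) :=
    ⟨one_pos, le_rfl, abs_one, fun x hx => hx, fun x _ y _ => by simp, fun η hη =>
      ⟨1, one_pos, fun y _ _ x _ => by simp; linarith⟩, hl₀, hl₀⟩
  -- precision at each depth
  have hε : ∀ j : ℕ, 0 < (1 / 64 : ℝ) * (1 / 2) ^ j ∧ (1 / 64 : ℝ) * (1 / 2) ^ j ≤ 1 / 4 :=
    fun j => ⟨by positivity, by
      have : (1 / 2 : ℝ) ^ j ≤ 1 := pow_le_one₀ (by norm_num) (by norm_num)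
      linarith⟩
  choose S w child hchild hw0 hw1 herr hjump using
    fun (j : ℕ) (N : {N : Node X // Good K L T d N}) =>
      exists_children hF N.2 (hε j).1 (hε j).2
  let node : List ℕ → {N : Node X // Good K L T d N} := fun t =>
    List.rec ⟨_, hroot⟩ (fun c t N => ⟨child t.length N c, hchild t.length N c⟩) t
  let V₀ : List ℕ → X := fun t => (node t).1.val u
  let avg : (List ℕ → X) → List ℕ → X := fun f t =>
    ∑ c ∈ S t.length (node t), w t.length (node t) c • f (c :: t)
  let V : ℕ → List ℕ → X := fun k => avg^[k] V₀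
  have hVsucc : ∀ k t, V (k + 1) t = avg (V k) t := fun k t => by
    simp only [V, Function.iterate_succ_apply']
  have hVd : ∀ k t, ‖V k t‖ ≤ d := by
    intro k
    induction k with
    | zero => exact fun t => norm_val_le hF (node t).2
    | succ k ih =>
      intro t
      rw [hVsucc]
      calc ‖avg (V k) t‖ ≤ ∑ c ∈ S t.length (node t), w t.length (node t) c * d := by
            refine (norm_sum_le _ _).trans (sum_le_sum fun c hc => ?_)
            have := hw0 _ (node t) c hc
            rw [norm_smul, Real.norm_eq_abs, abs_of_nonneg this]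
            exact mul_le_mul_of_nonneg_left (ih _) this
        _ = d := by rw [← Finset.sum_mul, hw1, one_mul]
  have hstep : ∀ k t, dist (V k t) (V (k + 1) t)
      ≤ (1 / 32 * (1 / 2) ^ t.length * d) / 2 / 2 ^ k := by
    intro k
    induction k with
    | zero =>
      intro t
      rw [dist_eq_norm, norm_sub_rev, hVsucc, pow_zero, div_one]
      refine (herr t.length (node t)).trans_eq ?_
      ring
    | succ k ih =>
      intro t
      rw [dist_eq_norm, hVsucc k, hVsucc (k + 1), ← sum_sub_distrib]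
      calc ‖∑ c ∈ S t.length (node t), (w t.length (node t) c • V k (c :: t)
              - w t.length (node t) c • V (k + 1) (c :: t))‖
          ≤ ∑ c ∈ S t.length (node t), w t.length (node t) c
              * ((1 / 32 * (1 / 2) ^ (t.length + 1) * d) / 2 / 2 ^ k) := by
            refine (norm_sum_le _ _).trans (sum_le_sum fun c hc => ?_)
            have := hw0 _ (node t) c hc
            rw [← smul_sub, norm_smul, Real.norm_eq_abs, abs_of_nonneg this, ← dist_eq_norm]
            exact mul_le_mul_of_nonneg_left (ih (c :: t)) this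
        _ = (1 / 32 * (1 / 2) ^ t.length * d) / 2 / 2 ^ (k + 1) := by
            rw [← Finset.sum_mul, hw1, one_mul, pow_succ, pow_succ]; ring
  have hcauchy : ∀ t, CauchySeq fun k => V k t := fun t =>
    cauchySeq_of_le_geometric_two (fun k => hstep k t)
  choose M hM using fun t => cauchySeq_tendsto_of_complete (hcauchy t)
  have hMclose : ∀ t, ‖M t - V₀ t‖ ≤ d / 32 := fun t => by
    have h := dist_le_of_le_geometric_two_of_tendsto₀ (fun k => hstep k t) (hM t)
    rw [← dist_eq_norm, dist_comm]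
    refine h.trans ?_
    have : (1 / 2 : ℝ) ^ t.length ≤ 1 := pow_le_one₀ (by norm_num) (by norm_num)
    nlinarith
  have hmean : ∀ t, ∑ c ∈ S t.length (node t), w t.length (node t) c • M (c :: t) = M t := by
    intro t
    refine tendsto_nhds_unique
      (tendsto_finsetSum _ fun c _ => (hM (c :: t)).const_smul _) ?_
    have h := (tendsto_add_atTop_iff_nat 1).2 (hM t)
    simpa only [hVsucc] using h
  refine no_bush (hball d) (convex_closedBall 0 d) M (fun t => ?_) (c := d / 4) (by linarith)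
    (fun t => (S t.length (node t)).image (· :: t))
    (fun t k => w t.length (node t) k.headI) ?_ ?_ ?_ ?_
  · rw [mem_closedBall_zero_iff]
    exact le_of_tendsto (hM t).norm (Eventually.of_forall fun k => hVd k t)
  · intro t k hk
    obtain ⟨c, hc, rfl⟩ := Finset.mem_image.1 hk
    exact hw0 _ _ c hc
  · intro t
    rw [Finset.sum_image (fun a _ b _ h => (List.cons.injEq _ _ _ _ ▸ h).1)]
    exact hw1 _ _
  · intro t
    rw [Finset.sum_image (fun a _ b _ h => (List.cons.injEq _ _ _ _ ▸ h).1)]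
    exact hmean t
  · intro t k hk
    obtain ⟨c, hc, rfl⟩ := Finset.mem_image.1 hk
    have h1 := hjump t.length (node t) c hc
    have h2 := hMclose t
    have h3 := hMclose (c :: t)
    have h4 : ‖V₀ (c :: t) - V₀ t‖
        ≤ ‖M (c :: t) - M t‖ + ‖M t - V₀ t‖ + ‖M (c :: t) - V₀ (c :: t)‖ := by
      calc ‖V₀ (c :: t) - V₀ t‖
          = ‖(M (c :: t) - M t) + (M t - V₀ t) - (M (c :: t) - V₀ (c :: t))‖ := by
            congr 1; abel
        _ ≤ _ := (norm_sub_le _ _).trans (add_le_add (norm_add_le _ _) le_rfl)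
    have h5 : d / 2 ≤ ‖V₀ (c :: t) - V₀ t‖ := h1
    linarith

/-- Fixed points exist as soon as closed balls are weakly compact. -/
theorem fixed_point_of_weaklyCompact_ball
    (hball : ∀ R : ℝ, IsCompact (toWeakSpace ℝ X '' closedBall 0 R))
    {C : Set X} (hne : C.Nonempty) (hcl : IsClosed C) (hbd : Bornology.IsBounded C)
    (hcv : Convex ℝ C) {T : X → X} (hT : MapsTo T C C)
    (hn : ∀ a ∈ C, ∀ b ∈ C, ‖T a - T b‖ ≤ ‖a - b‖) :
    ∃ x ∈ C, T x = x := by
  classical
  obtain ⟨R, hR⟩ := isBounded_iff_forall_norm_le.1 hbd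
  have hcc : ConvexCompact C := (convexCompact_of_weaklyCompact (hball R)).subset fun x hx =>
    mem_closedBall_zero_iff.2 (hR x hx)
  obtain ⟨K, hKC, hKne, hKcl, hKcv, hKT, hmin⟩ := exists_minimal_invariant hcc hne hcl hcv hT
  have hKbd := hbd.subset hKC
  have hKcc := hcc.subset hKC
  have hKn : ∀ a ∈ K, ∀ b ∈ K, ‖T a - T b‖ ≤ ‖a - b‖ := fun a ha b hb =>
    hn a (hKC ha) b (hKC hb)
  obtain ⟨x₀, hx₀⟩ := hKne
  have hdist : ∀ a ∈ K, ∀ b ∈ K, ‖a - b‖ ≤ diam K := fun a ha b hb => by
    rw [← dist_eq_norm]; exact dist_le_diam_of_mem hKbd ha hb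
  rcases diam_nonneg.eq_or_lt (b := diam K) with hd | hd
  · refine ⟨x₀, hKC hx₀, sub_eq_zero.1 (norm_le_zero_iff.1 ?_)⟩
    exact (hdist _ (hKT hx₀) x₀ hx₀).trans hd.ge
  exfalso
  have hl : ∀ n : ℕ, 0 < 1 / ((n : ℝ) + 2) ∧ 1 / ((n : ℝ) + 2) ≤ 1 := fun n =>
    ⟨by positivity, (div_le_one (by positivity)).2 (by linarith [(n.cast_nonneg : (0 : ℝ) ≤ n)])⟩
  choose u hu using fun n : ℕ => exists_resolvent hKcl hKcv hKT hKn
    (l := 1 - 1 / ((n : ℝ) + 2)) (by linarith [hl n]) (by linarith [hl n])
  have hmaps : ∀ n, MapsTo (u n) K K := fun n p hp => (hu n p hp).1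
  choose W hWK hW using fun p : K => exists_wlim hKcc hKcl hKcv hKbd
    (f := fun n => u n p.1) (fun n => hmaps n p.2)
  let W' : X → X := fun p => if hp : p ∈ K then W ⟨p, hp⟩ else p
  have hW'maps : MapsTo W' K K := fun p hp => by simp only [W', dif_pos hp]; exact hWK _
  obtain ⟨L, hLK, hLne, hLcl, hLcv, hLW, hLmin⟩ :=
    exists_minimal_invariant hKcc ⟨x₀, hx₀⟩ hKcl hKcv hW'maps
  have hhull : closure (convexHull ℝ (W' '' L)) = L := by
    have hsub : closure (convexHull ℝ (W' '' L)) ⊆ L :=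
      closure_minimal (convexHull_min hLW.image_subset hLcv) hLcl
    exact hLmin _ hsub ((hLne.image W').mono (subset_convexHull ℝ _)).closure isClosed_closure
      (convex_convexHull ℝ _).closure
      (fun v hv => subset_closure (subset_convexHull ℝ _ ⟨v, hsub hv, rfl⟩))
  refine no_frame hball (K := K) (L := L) (T := T) (d := diam K) (u := u) (W := W') ?_ hLne
  refine ⟨hKcv, hKcl, hKbd, hKcc, hd, hdist, hKT,
    fun a ha r hr => almost_fixed_far ⟨x₀, hx₀⟩ hKcl hKbd hKcv hKcc hKT hKn hmin ha hr,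
    hmaps, fun n p hp q hq => ?_, fun n p hp => ?_, fun n y hy => ?_, hLK, fun p hp => ?_,
    hhull.ge⟩
  · obtain ⟨h1, h2⟩ := hu n p hp
    obtain ⟨h1', h2'⟩ := hu n q hq
    set r := 1 / ((n : ℝ) + 2) with hr
    have h3 : u n p - u n q = (1 - r) • (T (u n p) - T (u n q)) + r • (p - q) := by
      conv_lhs => rw [h2, h2']
      simp only [sub_sub_cancel, smul_sub]; abel
    have h4 : ‖u n p - u n q‖ ≤ (1 - r) * ‖u n p - u n q‖ + r * ‖p - q‖ := by
      conv_lhs => rw [h3]
      refine (norm_add_le _ _).trans ?_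
      rw [norm_smul, norm_smul, Real.norm_eq_abs, Real.norm_eq_abs, abs_of_pos (hl n).1,
        abs_of_nonneg (by linarith [hl n] : (0 : ℝ) ≤ 1 - r)]
      gcongr
      · linarith [hl n]
      · exact hKn _ h1 _ h1'
    by_contra hlt
    rw [not_le] at hlt
    nlinarith [mul_lt_mul_of_pos_left hlt (hl n).1]
  · obtain ⟨h1, h2⟩ := hu n p hp
    set r := 1 / ((n : ℝ) + 2) with hr
    have h3 : T (u n p) - u n p = r • (T (u n p) - p) := by
      conv_lhs => arg 2; rw [h2]
      rw [sub_sub_cancel, sub_smul, one_smul, smul_sub]; abel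
    rw [h3, norm_smul, Real.norm_eq_abs, abs_of_pos (hl n).1, mul_comm (diam K)]
    exact mul_le_mul_of_nonneg_left (hdist _ (hKT h1) p hp) (hl n).1.le
  · obtain ⟨h1, h2⟩ := hu n y hy
    set r := 1 / ((n : ℝ) + 2) with hr
    set x := u n y
    have h3 : x - y = (1 - r) • ((T x - T y) + (T y - y)) := by
      conv_lhs => rw [h2]
      simp only [sub_add_sub_cancel, sub_sub_cancel, smul_sub, sub_smul, one_smul]; abel
    have h4 : ‖x - y‖ ≤ (1 - r) * (‖x - y‖ + ‖T y - y‖) := by
      conv_lhs => rw [h3]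
      rw [norm_smul, Real.norm_eq_abs, abs_of_nonneg (by linarith [hl n] : (0 : ℝ) ≤ 1 - r)]
      exact mul_le_mul_of_nonneg_left
        ((norm_add_le _ _).trans (add_le_add (hKn _ h1 _ hy) le_rfl)) (by linarith [hl n])
    have h5 : r * ((n : ℝ) + 2) = 1 := by rw [hr]; field_simp
    have h6 : r * ‖x - y‖ ≤ ‖T y - y‖ := by
      nlinarith [mul_nonneg (hl n).1.le (norm_nonneg (T y - y))]
    calc ‖x - y‖ = ((n : ℝ) + 2) * (r * ‖x - y‖) := by rw [← mul_assoc, mul_comm _ r, h5, one_mul]
      _ ≤ ((n : ℝ) + 2) * ‖T y - y‖ := mul_le_mul_of_nonneg_left h6 (by positivity)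
  · simp only [W', dif_pos (hLK hp)]
    exact hW ⟨p, hLK hp⟩

/-- In a space whose canonical map to the bidual is onto, closed balls are weakly compact. -/
theorem weaklyCompact_ball_of_reflexive
    (hX : Function.Surjective (NormedSpace.inclusionInDoubleDual ℝ X)) (R : ℝ) :
    IsCompact (toWeakSpace ℝ X '' closedBall 0 R) := by
  have hclosed : IsClosed (toWeakSpace ℝ X '' closedBall (0 : X) R) := by
    rw [← isClosed_closedBall.closure_eq, (convex_closedBall (0 : X) R).toWeakSpace_closure ℝ]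
    exact isClosed_closure
  have hpre : toWeakSpace ℝ X ⁻¹' (toWeakSpace ℝ X '' closedBall (0 : X) R) = closedBall 0 R :=
    Set.preimage_image_eq _ (toWeakSpace ℝ X).injective
  have h := NormedSpace.isCompact_closure_of_isBounded ℝ X
    (toWeakSpace ℝ X '' closedBall (0 : X) R) (by rw [hpre]; exact isBounded_closedBall) (by
      intro φ _
      obtain ⟨x, hx⟩ := hX (WeakDual.toStrongDual φ)
      refine ⟨toWeakSpace ℝ X x, ?_⟩
      apply DFunLike.ext
      intro g
      exact congrArg (fun ψ => ψ g) hx)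
  rwa [hclosed.closure_eq] at h

end Vale.Agent.P079
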