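import Vale.Agent.P079.Gap
import Mathlib.Analysis.Convex.Combination
import Mathlib.Analysis.Normed.Module.FiniteDimension
import Mathlib.Analysis.SpecificLimits.Basic
import Mathlib.Algebra.BigOperators.Field
import Mathlib.Data.Nat.Pairing

/-!
One step of the construction: a node is, up to a small error, a convex combination of children at
distance at least half the diameter from it.
-/

namespace Vale.Agent.P079

open Set Metric Filter Finset
open scoped Topology Pointwise

variable {X : Type*} [NormedAddCommGroup X] [NormedSpace ℝ X]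

/-- The standing data: a set `K` of diameter `d` without room, almost resolvents `u n` of `T`. -/
structure Frame (K L : Set X) (T : X → X) (d : ℝ) (u : ℕ → X → X) (W : X → X) : Prop where
  convexK : Convex ℝ K
  closedK : IsClosed K
  boundedK : Bornology.IsBounded K
  compactK : ConvexCompact K
  dpos : 0 < d
  dist_le : ∀ a ∈ K, ∀ b ∈ K, ‖a - b‖ ≤ d
  mapsT : MapsTo T K K
  far : ∀ a ∈ K, ∀ r < d, ∃ η > 0, ∀ x ∈ K, ‖T x - x‖ ≤ η → r < ‖x - a‖
  maps : ∀ n, MapsTo (u n) K K
  lip : ∀ n, ∀ p ∈ K, ∀ q ∈ K, ‖u n p - u n q‖ ≤ ‖p - q‖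
  almost : ∀ n, ∀ p ∈ K, ‖T (u n p) - u n p‖ ≤ d * (1 / ((n : ℝ) + 2))
  fixes : ∀ n, ∀ y ∈ K, ‖u n y - y‖ ≤ ((n : ℝ) + 2) * ‖T y - y‖
  subL : L ⊆ K
  wlim : ∀ p ∈ L, IsWlim (fun n => u n p) (W p)
  hullL : L ⊆ closure (convexHull ℝ (W '' L))

/-- The data carried by a node of the tree. -/
structure Node (X : Type*) where
  scale : ℝ
  sign : ℝ
  fn : X → X
  base : X
  index : ℕ
  source : X

/-- The point whose increment against the base defines the value of a node. -/
def Node.tip (u : ℕ → X → X) (N : Node X) : X := u N.index N.source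

/-- The value of a node: a signed normalised increment. -/
noncomputable def Node.val (u : ℕ → X → X) (N : Node X) : X :=
  (N.sign / N.scale) • (N.fn (N.tip u) - N.fn N.base)

/-- The invariants of a node. -/
structure Good (K L : Set X) (T : X → X) (d : ℝ) (N : Node X) : Prop where
  spos : 0 < N.scale
  sle : N.scale ≤ 1
  abs_sign : |N.sign| = 1
  maps : MapsTo N.fn K K
  lip : ∀ x ∈ K, ∀ y ∈ K, ‖N.fn x - N.fn y‖ ≤ N.scale * ‖x - y‖
  retains : ∀ η > 0, ∃ θ > 0, ∀ y ∈ K, ‖T y - y‖ ≤ θ → ∀ x ∈ K,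
    ‖N.fn x - y‖ ≤ (1 - N.scale) * d + N.scale * ‖x - y‖ + η
  base_mem : N.base ∈ L
  source_mem : N.source ∈ L

lemma sum_mem_scale {K : Set X} (hK : Convex ℝ K) {F : X} (hF : F ∈ K) (f : ℕ → X) (w : ℕ → ℝ)
    (S : Finset ℕ) (hf : ∀ i ∈ S, f i ∈ K) (hw : ∀ i ∈ S, 0 ≤ w i) :
    ∀ t : ℝ, ∑ i ∈ S, w i ≤ t → ∑ i ∈ S, w i • f i + (t - ∑ i ∈ S, w i) • F ∈ t • K := by
  induction S using Finset.induction with
  | empty => intro t _; simpa using smul_mem_smul_set (a := t) hF
  | insert a S haS ih =>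
    intro t ht
    rw [sum_insert haS] at ht
    have hS : ∀ i ∈ S, 0 ≤ w i := fun i hi => hw i (Finset.mem_insert_of_mem hi)
    have h0 := sum_nonneg hS
    have h := ih (fun i hi => hf i (Finset.mem_insert_of_mem hi)) hS (t - w a) (by linarith)
    have hsum := add_mem_scale hK (hw a (Finset.mem_insert_self a S)) (by linarith)
      (smul_mem_smul_set (a := w a) (hf a (Finset.mem_insert_self a S))) h
    rw [add_sub_cancel] at hsum
    rw [sum_insert haS, sum_insert haS]
    convert hsum using 1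
    rw [show t - (w a + ∑ x ∈ S, w x) = t - w a - ∑ x ∈ S, w x by ring]
    abel

lemma exists_finset_weights (f : ℕ → X) {y : X} (hy : y ∈ convexHull ℝ (range f)) :
    ∃ (S : Finset ℕ) (w : ℕ → ℝ), (∀ i ∈ S, 0 ≤ w i) ∧ ∑ i ∈ S, w i = 1 ∧
      ∑ i ∈ S, w i • f i = y := by
  classical
  rw [mem_convexHull_iff_exists_fintype] at hy
  obtain ⟨ι, hι, w, z, hw0, hw1, hz, hzy⟩ := hy
  choose c hc using hz
  refine ⟨Finset.univ.image c, fun i => ∑ k with c k = i, w k,
    fun i _ => sum_nonneg fun k _ => hw0 k, ?_, ?_⟩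
  · rw [sum_fiberwise_of_maps_to (fun k _ => mem_image_of_mem c (Finset.mem_univ k))]
    exact hw1
  · rw [← hzy,
      ← sum_fiberwise_of_maps_to (fun k _ => mem_image_of_mem c (Finset.mem_univ k))
        (fun k => w k • z k)]
    refine sum_congr rfl fun i _ => ?_
    rw [sum_smul]
    exact sum_congr rfl fun k hk => by rw [← hc k, (Finset.mem_filter.1 hk).2]

variable {K L : Set X} {T : X → X} {d : ℝ} {u : ℕ → X → X} {W : X → X}

lemma tip_mem (hF : Frame K L T d u W) {N : Node X} (hN : Good K L T d N) : N.tip u ∈ K :=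
  hF.maps _ (hF.subL hN.source_mem)

lemma norm_val_le (hF : Frame K L T d u W) {N : Node X} (hN : Good K L T d N) :
    ‖N.val u‖ ≤ d := by
  have hs := hN.spos
  rw [Node.val, norm_smul, Real.norm_eq_abs, abs_div, hN.abs_sign, abs_of_pos hs, one_div,
    inv_mul_le_iff₀ hs]
  exact (hN.lip _ (tip_mem hF hN) _ (hF.subL hN.base_mem)).trans
    (mul_le_mul_of_nonneg_left (hF.dist_le _ (tip_mem hF hN) _ (hF.subL hN.base_mem)) hs.le)

/-- Near a compact set, one functional sees an almost fixed point a diameter away from all of it. -/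
lemma exists_far_functional (hF : Frame K L T d u W) {P : Set X} (hP : IsCompact P)
    (hPK : P ⊆ K) (hPne : P.Nonempty) {τ : ℝ} (hτ : 0 < τ) :
    ∃ η > 0, ∀ x ∈ K, ‖T x - x‖ ≤ η →
      ∃ g : X →L[ℝ] ℝ, ‖g‖ ≤ 1 ∧ ∀ p ∈ P, d - 2 * τ ≤ g (x - p) := by
  classical
  obtain ⟨N, hNP, hNfin, hNcov⟩ := finite_cover_balls_of_compact hP hτ
  set A := hNfin.toFinset
  have hAne : A.Nonempty := by
    obtain ⟨p, hp⟩ := hPne
    obtain ⟨b, hb, -⟩ := mem_iUnion₂.1 (hNcov hp)
    exact ⟨b, hNfin.mem_toFinset.2 hb⟩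
  have hAK : ∀ b ∈ A, b ∈ K := fun b hb => hPK (hNP (hNfin.mem_toFinset.1 hb))
  have hcard : 0 < (A.card : ℝ) := by exact_mod_cast hAne.card_pos
  set m := ∑ b ∈ A, (A.card : ℝ)⁻¹ • b with hm
  have hmK : m ∈ K := hF.convexK.sum_mem (fun _ _ => by positivity)
    (by rw [sum_const, nsmul_eq_mul, mul_inv_cancel₀ hcard.ne']) hAK
  obtain ⟨η, hη, hfar⟩ := hF.far m hmK (d - τ / A.card)
    (by have := div_pos hτ hcard; linarith)
  refine ⟨η, hη, fun x hx hxT => ?_⟩
  obtain ⟨g, hg, hgx⟩ := exists_dual_vector'' ℝ (x - m)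
  simp only [RCLike.ofReal_real_eq_id, id_eq] at hgx
  refine ⟨g, hg, fun p hp => ?_⟩
  obtain ⟨b, hb, hpb⟩ := mem_iUnion₂.1 (hNcov hp)
  have hbA : b ∈ A := hNfin.mem_toFinset.2 hb
  have hsum : ∑ c ∈ A, g (x - c) = A.card * g (x - m) := by
    rw [hm, map_sub, map_sum]
    simp only [map_sub, map_smul, smul_eq_mul, sum_sub_distrib, sum_const, nsmul_eq_mul,
      ← Finset.mul_sum, mul_sub]
    field_simp
  have hle : ∑ c ∈ A.erase b, g (x - c) ≤ (A.erase b).card * d := by
    rw [← nsmul_eq_mul]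
    exact sum_le_card_nsmul _ _ _ fun c hc => (apply_le_norm hg _).trans
      (hF.dist_le _ hx _ (hAK c (Finset.mem_of_mem_erase hc)))
  rw [← add_sum_erase A _ hbA] at hsum
  have hce : ((A.erase b).card : ℝ) + 1 = A.card := by
    exact_mod_cast Finset.card_erase_add_one hbA
  have h1 : d - τ / A.card < g (x - m) := by rw [hgx]; exact hfar x hx hxT
  have h2 : (A.card : ℝ) * (d - τ / A.card) = A.card * d - τ := by field_simp
  have h3 := mul_lt_mul_of_pos_left h1 hcard
  have h4 : g (p - b) ≤ τ := (apply_le_norm hg _).trans (by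
    rw [← dist_eq_norm]; exact (mem_ball.1 hpb).le)
  have h5 : ((A.erase b).card : ℝ) * d = A.card * d - d := by rw [← hce]; ring
  simp only [map_sub] at hsum hle h1 h3 h4 ⊢
  rw [h2] at h3
  linarith

/-- Finitely many functionals that almost compute the distance to given points on a compact set. -/
lemma exists_norming (P : Set X) (hP : IsCompact P) (b : X) {τ : ℝ} (hτ : 0 < τ) :
    ∃ Ψ : Finset (X →L[ℝ] ℝ), ∀ y ∈ P, ∃ ψ ∈ Ψ, ‖ψ‖ ≤ 1 ∧ ‖y - b‖ - τ ≤ ψ (y - b) := by
  classical
  obtain ⟨N, -, hNfin, hNcov⟩ := finite_cover_balls_of_compact hP (half_pos hτ)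
  choose g hg hgy using fun y : X => exists_dual_vector'' ℝ (y - b)
  refine ⟨hNfin.toFinset.image g, fun y hy => ?_⟩
  obtain ⟨z, hz, hyz⟩ := mem_iUnion₂.1 (hNcov hy)
  refine ⟨g z, mem_image_of_mem g (hNfin.mem_toFinset.2 hz), hg z, ?_⟩
  have h1 : g z (z - b) = ‖z - b‖ := by
    simpa only [RCLike.ofReal_real_eq_id, id_eq] using hgy z
  have h2 : g z (z - y) ≤ τ / 2 := (apply_le_norm (hg z) _).trans (by
    rw [← dist_eq_norm, dist_comm]; exact (mem_ball.1 hyz).le)
  have h3 : ‖y - b‖ ≤ ‖z - b‖ + τ / 2 := by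
    have h' : ‖y - z‖ ≤ τ / 2 := by rw [← dist_eq_norm]; exact (mem_ball.1 hyz).le
    linarith [norm_sub_le_norm_sub_add_norm_sub y z b]
  simp only [map_sub] at h1 h2 ⊢
  linarith

/-- The candidates for children: almost fixed points that are far from a growing compact set, and
whose closed convex hull holds the prescribed weak limits. -/
lemma exists_candidates (hF : Frame K L T d u W) {G : X → X} (hGmaps : MapsTo G K K)
    (hGcont : ContinuousOn G K) {F a : X} (hFK : F ∈ K) (haK : a ∈ K) (Q : ℕ → X)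
    (hQ : ∀ c, Q c ∈ L) (θ τ : ℕ → ℝ) (hθ : ∀ c, 0 < θ c) (hτ : ∀ c, 0 < τ c) :
    ∃ m : ℕ → ℕ, (∀ c, d * (1 / ((m c : ℝ) + 2)) ≤ θ c) ∧
      (∀ c, ∃ g : X →L[ℝ] ℝ, ‖g‖ ≤ 1 ∧ d - 2 * τ c ≤ g (u (m c) (Q c) - G a) ∧
        ∀ x ∈ convexHull ℝ (insert F ((fun i => u (m i) (Q i)) '' Set.Iio c)),
          d - 2 * τ c ≤ g (u (m c) (Q c) - G x)) ∧
      ∀ i, (∀ k, Q (Nat.pair i k) = Q (Nat.pair i 0)) →
        W (Q (Nat.pair i 0)) ∈ closure (convexHull ℝ (range fun c => u (m c) (Q c))) := by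
  classical
  have key : ∀ (c : ℕ) (h : Finset X × Finset (X →L[ℝ] ℝ)), ↑h.1 ⊆ K → ∃ m : ℕ,
      d * (1 / ((m : ℝ) + 2)) ≤ θ c ∧
      (∃ g : X →L[ℝ] ℝ, ‖g‖ ≤ 1 ∧ d - 2 * τ c ≤ g (u m (Q c) - G a) ∧
        ∀ x ∈ convexHull ℝ (insert F (↑h.1 : Set X)), d - 2 * τ c ≤ g (u m (Q c) - G x)) ∧
      ∀ ψ ∈ h.2, |ψ (u m (Q c)) - ψ (W (Q c))| ≤ 1 / ((c : ℝ) + 1) := by
    intro c h hh
    have hsub : convexHull ℝ (insert F (↑h.1 : Set X)) ⊆ K :=
      convexHull_min (Set.insert_subset hFK hh) hF.convexK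
    have hP : IsCompact (insert (G a) (G '' convexHull ℝ (insert F (↑h.1 : Set X)))) :=
      ((((h.1.finite_toSet).insert F).isCompact_convexHull ℝ).image_of_continuousOn
        (hGcont.mono hsub)).insert _
    obtain ⟨η, hη, hg⟩ := exists_far_functional hF hP
      (Set.insert_subset (hGmaps haK) (hGmaps.mono_left hsub).image_subset)
      (Set.insert_nonempty _ _) (hτ c)
    have hlim : Tendsto (fun m : ℕ => d * (1 / ((m : ℝ) + 2))) atTop (𝓝 0) := by
      have h1 : Tendsto (fun m : ℕ => 1 / ((m : ℝ) + 2)) atTop (𝓝 0) :=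
        tendsto_const_nhds.div_atTop
          (tendsto_atTop_add_const_right _ _ tendsto_natCast_atTop_atTop)
      simpa using h1.const_mul d
    have e1 := (hlim.eventually_le_const (lt_min (hθ c) hη)).filter_mono
      Nat.hyperfilter_le_atTop
    have e2 : ∀ᶠ m in (hyperfilter ℕ : Filter ℕ),
        ∀ ψ ∈ h.2, |ψ (u m (Q c)) - ψ (W (Q c))| ≤ 1 / ((c : ℝ) + 1) := by
      refine (Filter.eventually_all_finset h.2).2 fun ψ _ => ?_
      have h1 := ((hF.wlim _ (hQ c) ψ).sub_const (ψ (W (Q c)))).abs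
      rw [sub_self, abs_zero] at h1
      exact h1.eventually_le_const (by positivity)
    obtain ⟨m, hm1, hm2⟩ := (e1.and e2).exists
    have hxK := hF.maps m (hF.subL (hQ c))
    obtain ⟨g, hg1, hg2⟩ := hg _ hxK
      ((hF.almost m _ (hF.subL (hQ c))).trans (hm1.trans (min_le_right _ _)))
    exact ⟨m, hm1.trans (min_le_left _ _),
      ⟨g, hg1, hg2 _ (Set.mem_insert _ _), fun x hx => hg2 _ (Set.mem_insert_of_mem _ ⟨x, hx, rfl⟩)⟩,
      hm2⟩
  choose mf hmθ hmg hmψ using key
  have hnorm : ∀ (c : ℕ) (H : Finset X), ∃ Ψ : Finset (X →L[ℝ] ℝ), ∀ j ≤ c,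
      ∀ y ∈ convexHull ℝ (↑H : Set X), ∃ ψ ∈ Ψ, ‖ψ‖ ≤ 1 ∧
        ‖y - W (Q j)‖ - 1 / ((c : ℝ) + 1) ≤ ψ (y - W (Q j)) := by
    intro c H
    choose Ψ hΨ using fun j : ℕ => exists_norming (convexHull ℝ (↑H : Set X))
      (H.finite_toSet.isCompact_convexHull ℝ) (W (Q j))
      (show (0 : ℝ) < 1 / ((c : ℝ) + 1) by positivity)
    refine ⟨(Finset.range (c + 1)).biUnion Ψ, fun j hj y hy => ?_⟩
    obtain ⟨ψ, hψ, h⟩ := hΨ j y hy
    exact ⟨ψ, mem_biUnion.2 ⟨j, Finset.mem_range.2 (Nat.lt_succ_of_le hj), hψ⟩, h⟩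
  choose Ψf hΨf using hnorm
  let hist : ℕ → {h : Finset X × Finset (X →L[ℝ] ℝ) // ↑h.1 ⊆ K} := fun c =>
    Nat.rec ⟨(∅, ∅), by simp⟩ (fun c h =>
      ⟨(insert (u (mf c h.1 h.2) (Q c)) h.1.1,
        h.1.2 ∪ Ψf c (insert (u (mf c h.1 h.2) (Q c)) h.1.1)), by
        rw [Finset.coe_insert]; exact Set.insert_subset (hF.maps _ (hF.subL (hQ c))) h.2⟩) c
  set m : ℕ → ℕ := fun c => mf c (hist c).1 (hist c).2 with hm
  set f : ℕ → X := fun c => u (m c) (Q c) with hf
  have hH : ∀ c, (↑(hist c).1.1 : Set X) = f '' Set.Iio c := by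
    intro c
    induction c with
    | zero =>
      have : Set.Iio (0 : ℕ) = ∅ := by ext i; simp
      simp [hist, this]
    | succ c ih =>
      have h1 : Set.Iio (c + 1) = insert c (Set.Iio c) := by ext i; simp
      rw [h1, Set.image_insert_eq, ← ih]
      exact Finset.coe_insert _ _
  have hmono : ∀ {c c'}, c ≤ c' → (hist c).1.2 ⊆ (hist c').1.2 := by
    intro c c' h
    induction c', h using Nat.le_induction with
    | base => exact subset_rfl
    | succ n _ ih => exact ih.trans Finset.subset_union_left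
  refine ⟨m, fun c => hmθ c _ _, fun c => ?_, fun i hi => ?_⟩
  · obtain ⟨g, h1, h2, h3⟩ := hmg c (hist c).1 (hist c).2
    rw [hH] at h3
    exact ⟨g, h1, h2, h3⟩
  set j := Nat.pair i 0 with hj
  set S := closure (convexHull ℝ (range f)) with hS
  obtain ⟨p, hpK, hp⟩ := exists_wlim hF.compactK hF.closedK hF.convexK hF.boundedK
    (f := fun k => f (Nat.pair i k)) (fun k => hF.maps _ (hF.subL (hQ _)))
  have hpS : p ∈ S := by
    by_contra hpS
    obtain ⟨φ, r, hr, hrp⟩ :=
      geometric_hahn_banach_closed_point (convex_convexHull ℝ _).closure isClosed_closure hpS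
    have := le_of_tendsto (hp φ) (Eventually.of_forall fun k =>
      (hr _ (subset_closure (subset_convexHull ℝ _ ⟨Nat.pair i k, rfl⟩))).le)
    linarith
  suffices p = W (Q j) by rw [← this]; exact hpS
  -- every stored functional has the same value at both points
  have heq : ∀ c, ∀ ψ ∈ (hist c).1.2, ψ p = ψ (W (Q j)) := by
    intro c ψ hψ
    refine tendsto_nhds_unique (hp ψ) ?_
    have h1 : Tendsto (fun k => ψ (f (Nat.pair i k))) atTop (𝓝 (ψ (W (Q j)))) := by
      refine tendsto_iff_norm_sub_tendsto_zero.2 ?_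
      refine squeeze_zero' (Eventually.of_forall fun k => norm_nonneg _) ?_
        (tendsto_one_div_add_atTop_nhds_zero_nat (𝕜 := ℝ))
      filter_upwards [eventually_ge_atTop c] with k hk
      have hck : c ≤ Nat.pair i k := hk.trans (Nat.right_le_pair i k)
      have h2 := hmψ (Nat.pair i k) (hist (Nat.pair i k)).1 (hist (Nat.pair i k)).2 ψ (hmono hck hψ)
      rw [hi k] at h2
      rw [Real.norm_eq_abs]
      simp only [hf, hi k]
      refine h2.trans (one_div_le_one_div_of_le (by positivity) ?_)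
      exact add_le_add (Nat.cast_le.2 (Nat.right_le_pair i k)) le_rfl
    exact h1.mono_left Nat.hyperfilter_le_atTop
  refine eq_of_forall_dist_le fun δ hδ => ?_
  obtain ⟨y, hy, hpy⟩ := Metric.mem_closure_iff.1 hpS (δ / 4) (by linarith)
  obtain ⟨A, w, hw0, hw1, hwy⟩ := exists_finset_weights f hy
  obtain ⟨N, hN⟩ := exists_nat_one_div_lt (show (0 : ℝ) < δ / 4 by linarith)
  set c := max (max N j) (A.sup id) with hc
  have hyH : y ∈ convexHull ℝ (↑(hist (c + 1)).1.1 : Set X) := by
    rw [← hwy]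
    refine (convex_convexHull ℝ _).sum_mem hw0 hw1 fun k hk => subset_convexHull ℝ _ ?_
    refine (hH (c + 1)).ge ⟨k, ?_, rfl⟩
    exact Nat.lt_succ_of_le (le_trans (Finset.le_sup (f := id) hk) (le_max_right _ _))
  obtain ⟨ψ, hψ, hψ1, hψy⟩ := hΨf c (hist (c + 1)).1.1 j
    (le_trans (le_max_right _ _) (le_max_left _ _)) y hyH
  have hψmem : ψ ∈ (hist (c + 1)).1.2 := Finset.mem_union_right _ hψ
  have h3 := heq (c + 1) ψ hψmem
  have h4 : 1 / ((c : ℝ) + 1) ≤ δ / 4 :=
    le_trans (Nat.one_div_le_one_div (le_trans (le_max_left _ _) (le_max_left _ _))) hN.le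
  have h5 : ψ (y - p) ≤ δ / 4 := (apply_le_norm hψ1 _).trans (by
    rw [← dist_eq_norm, dist_comm]; exact hpy.le)
  rw [map_sub] at hψy h5
  calc dist p (W (Q j)) ≤ dist p y + dist y (W (Q j)) := dist_triangle _ _ _
    _ ≤ δ := by rw [dist_eq_norm y]; linarith

/-- One step of the tree. -/
lemma exists_children (hF : Frame K L T d u W) {N : Node X} (hN : Good K L T d N) {ε : ℝ}
    (hε : 0 < ε) (hε1 : ε ≤ 1 / 4) :
    ∃ (S : Finset ℕ) (w : ℕ → ℝ) (child : ℕ → Node X), (∀ c, Good K L T d (child c)) ∧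
      (∀ c ∈ S, 0 ≤ w c) ∧ ∑ c ∈ S, w c = 1 ∧
      ‖∑ c ∈ S, w c • (child c).val u - N.val u‖ ≤ ε * d ∧
      ∀ c ∈ S, d / 2 ≤ ‖(child c).val u - N.val u‖ := by
  classical
  set s := N.scale with hs
  set G := N.fn with hG
  set n := N.index
  set F := N.tip u with hFdef
  set a := N.base
  have hd := hF.dpos
  have hspos : 0 < s := hN.spos
  have hFK : F ∈ K := tip_mem hF hN
  have haK : a ∈ K := hF.subL hN.base_mem
  have hGcont : ContinuousOn G K := by
    refine Metric.continuousOn_iff.2 fun x hx η hη => ⟨η / s, by positivity, fun y hy hyx => ?_⟩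
    rw [dist_eq_norm] at hyx ⊢
    exact (hN.lip y hy x hx).trans_lt (by rw [← lt_div_iff₀' hspos]; exact hyx)
  -- finitely many sources whose weak limits surround the base
  obtain ⟨a', ha', haa'⟩ := Metric.mem_closure_iff.1 (hF.hullL hN.base_mem) (ε * d / 8)
    (by positivity)
  rw [convexHull_eq_union_convexHull_finite_subsets, mem_iUnion₂] at ha'
  obtain ⟨A, hA, ha'A⟩ := ha'
  have hAne : A.Nonempty := Finset.coe_nonempty.1 (convexHull_nonempty_iff.1 ⟨a', ha'A⟩)
  haveI : Nonempty A := hAne.to_subtype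
  obtain ⟨enum, henum⟩ := exists_surjective_nat A
  choose src hsrc hsrcW using fun b : A => hA b.2
  set Q : ℕ → X := fun c => src (enum (Nat.unpair c).1) with hQdef
  have hQ : ∀ c, Q c ∈ L := fun c => hsrc _
  set κ : ℕ → ℝ := fun c => ε / 16 * (1 / 2) ^ c with hκ
  have hκpos : ∀ c, 0 < κ c := fun c => by positivity
  set τ : ℕ → ℝ := fun c => s * κ c * d / 20 with hτdef
  have hτpos : ∀ c, 0 < τ c := fun c => by positivity
  choose θ₀ hθ₀ hret using fun c => hN.retains (τ c) (hτpos c)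
  set θ : ℕ → ℝ := fun c => min (θ₀ c) (ε * d / 8 / ((n : ℝ) + 2)) with hθ
  obtain ⟨m, hmθ, hmg, hmW⟩ := exists_candidates hF hN.maps hGcont hFK haK Q hQ θ τ
    (fun c => lt_min (hθ₀ c) (by positivity)) hτpos
  set f : ℕ → X := fun c => u (m c) (Q c) with hf
  have hfK : ∀ c, f c ∈ K := fun c => hF.maps _ (hF.subL (hQ c))
  have hfT : ∀ c, ‖T (f c) - f c‖ ≤ θ c := fun c => (hF.almost _ _ (hF.subL (hQ c))).trans (hmθ c)
  have hferr : ∀ c, ‖u n (f c) - f c‖ ≤ ε * d / 8 := fun c => by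
    have h := mul_le_mul_of_nonneg_left ((hfT c).trans (min_le_right _ _))
      (show (0 : ℝ) ≤ (n : ℝ) + 2 by positivity)
    rw [mul_div_cancel₀ _ (show ((n : ℝ) + 2) ≠ 0 by positivity)] at h
    exact (hF.fixes n _ (hfK c)).trans h
  have ha'f : a' ∈ closure (convexHull ℝ (range f)) := by
    refine convexHull_min ?_ (convex_convexHull ℝ _).closure ha'A
    intro b hb
    obtain ⟨i, hi⟩ := henum ⟨b, hb⟩
    have hQi : ∀ k, Q (Nat.pair i k) = src ⟨b, hb⟩ := fun k => by
      simp only [hQdef, Nat.unpair_pair, hi]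
    have h := hmW i (fun k => by rw [hQi k, hQi 0])
    rwa [hQi 0, hsrcW] at h
  obtain ⟨y, hy, ha'y⟩ := Metric.mem_closure_iff.1 ha'f (ε * d / 8) (by positivity)
  obtain ⟨S₀, w₀, hw₀, hw₀1, hw₀y⟩ := exists_finset_weights f hy
  -- drop the candidates of very small weight
  set S := S₀.filter (fun c => κ c ≤ w₀ c) with hS
  set β := ∑ c ∈ S₀.filter (fun c => ¬ κ c ≤ w₀ c), w₀ c with hβ
  have hβ0 : 0 ≤ β := sum_nonneg fun c hc => hw₀ c (Finset.mem_filter.1 hc).1
  have hβle : β ≤ ε / 8 := by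
    calc β ≤ ∑ c ∈ S₀.filter (fun c => ¬ κ c ≤ w₀ c), κ c :=
          sum_le_sum fun c hc => (not_le.1 (Finset.mem_filter.1 hc).2).le
      _ ≤ ε / 16 * 2 := by
          rw [hκ, ← Finset.mul_sum]
          refine mul_le_mul_of_nonneg_left ?_ (by positivity)
          exact (summable_geometric_two.sum_le_tsum _ fun c _ => by positivity).trans
            tsum_geometric_two.le
      _ = ε / 8 := by ring
  have hsplit : ∑ c ∈ S, w₀ c + β = 1 := by
    rw [hS, hβ, sum_filter_add_sum_filter_not, hw₀1]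
  have hβ1 : 0 < 1 - β := by linarith
  set w : ℕ → ℝ := fun c => w₀ c / (1 - β) with hw
  have hw0 : ∀ c ∈ S, 0 ≤ w c := fun c hc =>
    div_nonneg (hw₀ c (Finset.mem_filter.1 hc).1) hβ1.le
  have hwκ : ∀ c ∈ S, κ c ≤ w c := fun c hc => (Finset.mem_filter.1 hc).2.trans
    (le_div_self (hw₀ c (Finset.mem_filter.1 hc).1) hβ1 (by linarith))
  have hw1 : ∑ c ∈ S, w c = 1 := by
    rw [hw, ← Finset.sum_div, div_eq_one_iff_eq hβ1.ne']; linarith
  set y' := ∑ c ∈ S, w c • f c with hy'
  have hy'K : y' ∈ K := hF.convexK.sum_mem hw0 hw1 fun c _ => hfK c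
  have hy'y : ‖y' - y‖ ≤ β * d := by
    have h1 : y' - y = ∑ c ∈ S₀.filter (fun c => ¬ κ c ≤ w₀ c), w₀ c • (y' - f c) := by
      simp only [smul_sub, sum_sub_distrib, ← sum_smul]
      rw [← hβ, ← hw₀y, ← sum_filter_add_sum_filter_not S₀ (fun c => κ c ≤ w₀ c)]
      have h2 : ∑ c ∈ S, w₀ c • f c = (1 - β) • y' := by
        rw [hy', Finset.smul_sum]
        refine sum_congr rfl fun c _ => ?_
        rw [smul_smul, hw, mul_div_cancel₀ _ hβ1.ne']
      rw [← hS, h2, sub_smul, one_smul]; abel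
    rw [h1, hβ, Finset.sum_mul]
    refine (norm_sum_le _ _).trans (sum_le_sum fun c hc => ?_)
    have := hw₀ c (Finset.mem_filter.1 hc).1
    rw [norm_smul, Real.norm_eq_abs, abs_of_nonneg this]
    exact mul_le_mul_of_nonneg_left (hF.dist_le _ hy'K _ (hfK c)) this
  -- the path from the tip to the mean of the children
  set P : ℕ → X := fun c => ∑ i ∈ S with i < c, w i • f i
    + (1 - ∑ i ∈ S with i < c, w i) • F with hP
  have hpart : ∀ c ∈ S, ∑ i ∈ S with i < c, w i ≤ 1 - w c := fun c hc => by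
    have h1 : ∑ i ∈ S with i < c, w i + w c ≤ ∑ i ∈ S, w i := by
      rw [add_comm, ← sum_insert (s := S.filter (· < c)) (by simp)]
      exact sum_le_sum_of_subset_of_nonneg
        (Finset.insert_subset hc (filter_subset _ _)) fun i hi _ => hw0 i hi
    linarith
  have hmid : ∀ c ∈ S, ∃ b ∈ K, P c = (1 - w c) • b + w c • F ∧
      P (c + 1) = (1 - w c) • b + w c • f c := by
    intro c hc
    obtain ⟨b, hb, hbeq⟩ := mem_smul_set.1 (sum_mem_scale hF.convexK hFK f w (S.filter (· < c))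
      (fun i _ => hfK i) (fun i hi => hw0 i (Finset.mem_filter.1 hi).1) (1 - w c) (hpart c hc))
    refine ⟨b, hb, ?_, ?_⟩
    · simp only [hP, hbeq, sub_smul, one_smul]; abel
    · have h1 : S.filter (fun i => i < c + 1) = insert c (S.filter (fun i => i < c)) := by
        ext i
        simp only [Finset.mem_filter, Finset.mem_insert]
        constructor
        · rintro ⟨h, h'⟩; rcases Nat.lt_succ_iff_lt_or_eq.1 h' with h' | h'
          · exact Or.inr ⟨h, h'⟩
          · exact Or.inl h'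
        · rintro (rfl | ⟨h, h'⟩)
          · exact ⟨hc, Nat.lt_succ_self _⟩
          · exact ⟨h, by omega⟩
      simp only [hP, h1, sum_insert (s := S.filter (fun i => i < c)) (a := c) (by simp), hbeq,
        sub_smul, add_smul, one_smul]
      abel
  choose! b hbK hPb hPb' using hmid
  have hSne : S.Nonempty := by
    rcases S.eq_empty_or_nonempty with h | h
    · simp [h] at hw1
    · exact h
  obtain ⟨c₀, hc₀⟩ := hSne
  set pick : ℕ → ℕ := fun c => if c ∈ S then c else c₀ with hpick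
  have hpickS : ∀ c, pick c ∈ S := fun c => by
    simp only [hpick]; split_ifs with h
    exacts [h, hc₀]
  set mk : ℕ → Node X := fun c => ⟨s * w c, -N.sign,
    fun x => G ((1 - w c) • b c + w c • u n x), N.source, m c, Q c⟩ with hmk
  have hwle : ∀ c ∈ S, w c ≤ 1 := fun c hc => hw1 ▸ single_le_sum hw0 hc
  have hgood : ∀ c ∈ S, Good K L T d (mk c) := by
    intro c hc
    have hwpos : 0 < w c := lt_of_lt_of_le (hκpos c) (hwκ c hc)
    have hin : ∀ x ∈ K, (1 - w c) • b c + w c • u n x ∈ K := fun x hx =>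
      hF.convexK (hbK c hc) (hF.maps n hx) (by linarith [hwle c hc]) hwpos.le (by ring)
    refine ⟨mul_pos hspos hwpos, mul_le_one₀ hN.sle hwpos.le (hwle c hc),
      (abs_neg _).trans hN.abs_sign, fun x hx => hN.maps (hin x hx), fun x hx z hz => ?_,
      fun η hη => ?_, hN.source_mem, hQ c⟩
    · refine (hN.lip _ (hin x hx) _ (hin z hz)).trans ?_
      show s * _ ≤ s * w c * _
      rw [add_sub_add_left_eq_sub, ← smul_sub, norm_smul, Real.norm_eq_abs, abs_of_pos hwpos,
        mul_assoc]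
      gcongr
      exact hF.lip n x hx z hz
    · obtain ⟨θ', hθ', hret'⟩ := hN.retains (η / 2) (by linarith)
      refine ⟨min θ' (η / 2 / ((n : ℝ) + 2)), lt_min hθ' (by positivity), fun z hz hzT x hx => ?_⟩
      show ‖G _ - z‖ ≤ (1 - s * w c) * d + s * w c * ‖x - z‖ + η
      refine (hret' z hz (hzT.trans (min_le_left _ _)) _ (hin x hx)).trans ?_
      have h1 : ‖u n z - z‖ ≤ η / 2 := by
        have h := mul_le_mul_of_nonneg_left (hzT.trans (min_le_right _ _))
          (show (0 : ℝ) ≤ (n : ℝ) + 2 by positivity)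
        rw [mul_div_cancel₀ _ (show ((n : ℝ) + 2) ≠ 0 by positivity)] at h
        exact (hF.fixes n z hz).trans h
      have h2 : ‖(1 - w c) • b c + w c • u n x - z‖ ≤ (1 - w c) * d + w c * (‖x - z‖ + η / 2) := by
        have heq : (1 - w c) • b c + w c • u n x - z
            = (1 - w c) • (b c - z) + w c • ((u n x - u n z) + (u n z - z)) := by
          simp only [smul_sub, smul_add, sub_smul, one_smul]; abel
        rw [heq]
        refine (norm_add_le _ _).trans ?_
        rw [norm_smul, norm_smul, Real.norm_eq_abs, Real.norm_eq_abs,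
          abs_of_nonneg (by linarith [hwle c hc]), abs_of_pos hwpos]
        refine add_le_add (mul_le_mul_of_nonneg_left (hF.dist_le _ (hbK c hc) _ hz)
          (by linarith [hwle c hc])) (mul_le_mul_of_nonneg_left ?_ hwpos.le)
        exact (norm_add_le _ _).trans (add_le_add (hF.lip n x hx z hz) h1)
      have h3 := mul_le_mul_of_nonneg_left h2 hspos.le
      have h4 : s * w c * (η / 2) ≤ η / 2 :=
        mul_le_of_le_one_left (by linarith) (mul_le_one₀ hN.sle hwpos.le (hwle c hc))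
      linarith
  refine ⟨S, w, fun c => mk (pick c), fun c => hgood _ (hpickS c), hw0, hw1, ?_, ?_⟩
  · set D : ℕ → X := fun c => G ((1 - w c) • b c + w c • u n (f c)) - G (P c) with hD
    have hval : ∀ c ∈ S, w c • (mk (pick c)).val u = -(N.sign / s) • D c := by
      intro c hc
      have hwne : w c ≠ 0 := (lt_of_lt_of_le (hκpos c) (hwκ c hc)).ne'
      simp only [hpick, if_pos hc, hmk, Node.val, Node.tip, hD, hPb c hc, hFdef, smul_smul]
      congr 1
      field_simp
    have hPK : ∀ k, P k ∈ K := fun k => by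
      have hle : ∑ i ∈ S with i < k, w i ≤ 1 := hw1 ▸
        sum_le_sum_of_subset_of_nonneg (filter_subset _ _) fun i hi _ => hw0 i hi
      have h := sum_mem_scale hF.convexK hFK f w (S.filter (· < k)) (fun i _ => hfK i)
        (fun i hi => hw0 i (Finset.mem_filter.1 hi).1) 1 hle
      rwa [one_smul] at h
    set M := S.sup id + 1 with hM
    have hSM : ∀ i ∈ S, i < M := fun i hi => Nat.lt_succ_of_le (Finset.le_sup (f := id) hi)
    have htel : ∑ c ∈ S, (G (P (c + 1)) - G (P c)) = G y' - G F := by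
      have h0 : P 0 = F := by simp [hP]
      have h1 : P M = y' := by
        have : S.filter (fun i => i < M) = S := Finset.filter_true_of_mem hSM
        simp only [hP, this, hw1, sub_self, zero_smul, add_zero, hy']
      rw [← h0, ← h1, ← Finset.sum_range_sub (fun k => G (P k))]
      refine sum_subset (fun c hc => Finset.mem_range.2 (hSM c hc)) fun c _ hc => ?_
      have : S.filter (fun i => i < c + 1) = S.filter (fun i => i < c) := by
        refine Finset.filter_congr fun i hi => ⟨fun h => ?_, fun h => by omega⟩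
        rcases Nat.lt_succ_iff_lt_or_eq.1 h with h' | h'
        · exact h'
        · exact absurd (h' ▸ hi) hc
      simp only [hP, this, sub_self]
    have herr : ‖∑ c ∈ S, D c - (G a - G F)‖ ≤ s * (ε * d) := by
      have h1 : ∑ c ∈ S, D c - (G a - G F)
          = ∑ c ∈ S, (D c - (G (P (c + 1)) - G (P c))) + (G y' - G a) := by
        have h0 : ∑ c ∈ S, (D c - (G (P (c + 1)) - G (P c)))
            = ∑ c ∈ S, D c - ∑ c ∈ S, (G (P (c + 1)) - G (P c)) := sum_sub_distrib _ _
        rw [h0, htel]; abel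
      rw [h1]
      refine (norm_add_le _ _).trans ?_
      have h2 : ‖∑ c ∈ S, (D c - (G (P (c + 1)) - G (P c)))‖ ≤ s * (ε * d / 8) := by
        refine (norm_sum_le _ _).trans ?_
        calc ∑ c ∈ S, ‖D c - (G (P (c + 1)) - G (P c))‖ ≤ ∑ c ∈ S, w c * (s * (ε * d / 8)) := by
              refine sum_le_sum fun c hc => ?_
              have hwc := hw0 c hc
              have hin : (1 - w c) • b c + w c • u n (f c) ∈ K := hF.convexK (hbK c hc)
                (hF.maps n (hfK c)) (by linarith [hwle c hc]) hwc (by ring)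
              rw [hD, sub_sub_sub_cancel_right]
              refine (hN.lip _ hin _ (hPK _)).trans ?_
              rw [hPb' c hc, add_sub_add_left_eq_sub, ← smul_sub, norm_smul, Real.norm_eq_abs,
                abs_of_nonneg hwc, mul_left_comm (w c)]
              exact mul_le_mul_of_nonneg_left (mul_le_mul_of_nonneg_left (hferr c) hwc) hspos.le
          _ = s * (ε * d / 8) := by rw [← Finset.sum_mul, hw1, one_mul]
      have h3 : ‖y' - a‖ ≤ β * d + ε * d / 4 := by
        rw [dist_eq_norm] at haa' ha'y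
        calc ‖y' - a‖ = ‖(y' - y) - (a' - y) - (a - a')‖ := by congr 1; abel
          _ ≤ ‖y' - y‖ + ‖a' - y‖ + ‖a - a'‖ :=
            (norm_sub_le _ _).trans (add_le_add (norm_sub_le _ _) le_rfl)
          _ ≤ β * d + ε * d / 4 := by linarith
      have h4 : ‖G y' - G a‖ ≤ s * (β * d + ε * d / 4) :=
        (hN.lip _ hy'K _ haK).trans (mul_le_mul_of_nonneg_left h3 hspos.le)
      nlinarith [mul_le_mul_of_nonneg_right hβle hd.le, mul_pos hε hd]
    rw [sum_congr rfl hval, ← Finset.smul_sum]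
    have h5 : -(N.sign / s) • (∑ c ∈ S, D c) - N.val u
        = -(N.sign / s) • (∑ c ∈ S, D c - (G a - G F)) := by
      simp only [Node.val, ← hFdef, ← hs, ← hG]
      simp only [smul_sub, neg_smul]; abel
    rw [h5, norm_smul, Real.norm_eq_abs, abs_neg, abs_div, hN.abs_sign, abs_of_pos hspos, one_div,
      inv_mul_le_iff₀ hspos]
    exact herr
  · intro c hc
    have hwpos : 0 < w c := lt_of_lt_of_le (hκpos c) (hwκ c hc)
    simp only [hpick, if_pos hc]
    obtain ⟨g, hg, hga, hgx⟩ := hmg c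
    have hPmem : P c ∈ convexHull ℝ (insert F (f '' Set.Iio c)) := by
      have h := sum_mem_scale (convex_convexHull ℝ (insert F (f '' Set.Iio c)))
        (subset_convexHull ℝ _ (Set.mem_insert _ _)) f w (S.filter (· < c))
        (fun i hi => subset_convexHull ℝ _
          (Set.mem_insert_of_mem _ ⟨i, (Finset.mem_filter.1 hi).2, rfl⟩))
        (fun i hi => hw0 i (Finset.mem_filter.1 hi).1) 1
        (by linarith [hpart c hc])
      rwa [one_smul] at h
    have hgP := hgx _ hPmem
    have hgF := hgx F (subset_convexHull ℝ _ (Set.mem_insert _ _))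
    have hin : (1 - w c) • b c + w c • u n (f c) ∈ K := hF.convexK (hbK c hc)
      (hF.maps n (hfK c)) (by linarith [hwle c hc]) hwpos.le (by ring)
    have hnear : ‖G ((1 - w c) • b c + w c • u n (f c)) - f c‖
        ≤ (1 - s * w c) * d + s * w c * (ε * d / 8) + τ c := by
      refine (hret c (f c) (hfK c) ((hfT c).trans (min_le_left _ _)) _ hin).trans ?_
      have h2 : ‖(1 - w c) • b c + w c • u n (f c) - f c‖
          ≤ (1 - w c) * d + w c * (ε * d / 8) := by
        have heq : (1 - w c) • b c + w c • u n (f c) - f c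
            = (1 - w c) • (b c - f c) + w c • (u n (f c) - f c) := by
          simp only [smul_sub, sub_smul, one_smul]; abel
        rw [heq]
        refine (norm_add_le _ _).trans ?_
        rw [norm_smul, norm_smul, Real.norm_eq_abs, Real.norm_eq_abs,
          abs_of_nonneg (by linarith [hwle c hc]), abs_of_pos hwpos]
        exact add_le_add (mul_le_mul_of_nonneg_left (hF.dist_le _ (hbK c hc) _ (hfK c))
          (by linarith [hwle c hc])) (mul_le_mul_of_nonneg_left (hferr c) hwpos.le)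
      nlinarith [mul_le_mul_of_nonneg_left h2 hspos.le]
    have hgc := (apply_le_norm hg (f c - G ((1 - w c) • b c + w c • u n (f c)))).trans
      ((norm_sub_rev _ _).trans_le hnear)
    have hgn := (apply_le_norm hg (f c - G F)).trans
      (hF.dist_le _ (hfK c) _ (hN.maps hFK))
    have hval : (mk c).val u - N.val u = (-N.sign) • ((s * w c)⁻¹ •
        (G ((1 - w c) • b c + w c • u n (f c)) - G (P c)) + s⁻¹ • (G F - G a)) := by
      simp only [hmk, Node.val, Node.tip, hPb c hc, hFdef, smul_add, smul_smul, div_eq_mul_inv,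
        neg_mul, neg_smul, ← hs, ← hG]
      abel
    rw [hval, norm_smul, Real.norm_eq_abs, abs_neg, hN.abs_sign, one_mul]
    refine le_trans ?_ (apply_le_norm hg _)
    simp only [map_add, map_smul, map_sub, smul_eq_mul] at hgP hgF hga hgc hgn ⊢
    rw [← mul_le_mul_iff_of_pos_left (mul_pos hspos hwpos)]
    have hτκ : τ c ≤ s * w c * d / 20 := by
      simp only [hτdef]; gcongr; exact hwκ c hc
    have e1 : s * w c * ((s * w c)⁻¹ * (g (G ((1 - w c) • b c + w c • u n (f c))) - g (G (P c)))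
        + s⁻¹ * (g (G F) - g (G a)))
        = (g (G ((1 - w c) • b c + w c • u n (f c))) - g (G (P c)))
          + w c * (g (G F) - g (G a)) := by
      field_simp
    rw [e1]
    have e2 : w c * (-(2 * τ c)) ≤ w c * (g (G F) - g (G a)) :=
      mul_le_mul_of_nonneg_left (by linarith) hwpos.le
    have e3 : w c * τ c ≤ τ c := mul_le_of_le_one_left (hτpos c).le (hwle c hc)
    have e4 : s * w c * (ε * d / 8) ≤ s * w c * (d / 32) :=
      mul_le_mul_of_nonneg_left (by nlinarith) (mul_pos hspos hwpos).le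
    have e5 := mul_pos (mul_pos hspos hwpos) hd
    linarith

end Vale.Agent.P079
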