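import Mathlib.Analysis.Convex.Uniform
import Mathlib.Analysis.SpecialFunctions.Pow.Real

/-!
Two facts about uniformly convex spaces: a two point inequality for squared norms and the finite
intersection property of bounded closed convex sets.
-/

namespace Vale.Agent.P079

variable {Y : Type*} [NormedAddCommGroup Y] [NormedSpace ℝ Y] [UniformConvexSpace Y]

/-- In a uniformly convex space the parallelogram inequality holds with a gain. -/
theorem exists_kappa : ∃ κ : ℝ, 0 < κ ∧ κ ≤ 1 ∧ ∀ x y : Y,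
    ‖x + y‖ ^ 2 ≤ 2 * (‖x‖ ^ 2 + ‖y‖ ^ 2)
      - κ * (‖x - y‖ ^ 2 - (‖x‖ ^ 2 + ‖y‖ ^ 2) / 8) := by
  obtain ⟨δ₀, hδ₀, hδ⟩ := exists_forall_closed_ball_dist_add_le_two_sub Y
    (show (0 : ℝ) < 1 / 3 by norm_num)
  set δ := min δ₀ 1 with hδdef
  have hd0 : 0 < δ := lt_min hδ₀ one_pos
  have hd1 : δ ≤ 1 := min_le_right _ _
  refine ⟨δ ^ 2 / 64, by positivity, by nlinarith, ?_⟩
  suffices h : ∀ x y : Y, ‖y‖ ≤ ‖x‖ → ‖x + y‖ ^ 2 ≤ 2 * (‖x‖ ^ 2 + ‖y‖ ^ 2)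
      - δ ^ 2 / 64 * (‖x - y‖ ^ 2 - (‖x‖ ^ 2 + ‖y‖ ^ 2) / 8) by
    intro x y
    rcases le_total ‖y‖ ‖x‖ with h' | h'
    · exact h x y h'
    · have := h y x h'
      rwa [add_comm y x, norm_sub_rev y x, add_comm (‖y‖ ^ 2)] at this
  intro x y hyx
  set a := ‖x‖ with ha
  set b := ‖y‖ with hb
  have hb0 : 0 ≤ b := norm_nonneg _
  have ha0 : 0 ≤ a := norm_nonneg _
  have hs0 : 0 ≤ ‖x + y‖ := norm_nonneg _
  have hadd : ‖x + y‖ ≤ a + b := norm_add_le _ _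
  have hsub : ‖x - y‖ ≤ a + b := norm_sub_le _ _
  have hd2 : δ ^ 2 ≤ 1 := by nlinarith
  by_cases hfar : ‖x - y‖ ^ 2 ≤ (a ^ 2 + b ^ 2) / 8
  · have : δ ^ 2 / 64 * (‖x - y‖ ^ 2 - (a ^ 2 + b ^ 2) / 8) ≤ 0 :=
      mul_nonpos_of_nonneg_of_nonpos (by positivity) (by linarith)
    nlinarith [sq_nonneg (a - b)]
  rw [not_le] at hfar
  have hapos : 0 < a := by
    rcases ha0.eq_or_lt with h | h
    · exfalso
      have hb' : b = 0 := le_antisymm (hyx.trans h.ge) hb0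
      have : ‖x - y‖ = 0 := le_antisymm (by linarith) (norm_nonneg _)
      rw [this, ← h, hb'] at hfar
      norm_num at hfar
    · exact h
  have key : δ ^ 2 / 16 * a ^ 2 ≤ 2 * (a ^ 2 + b ^ 2) - ‖x + y‖ ^ 2 := by
    by_cases hclose : b ≤ (1 - δ / 4) * a
    · have h1 : δ / 4 * a ≤ a - b := by linarith
      nlinarith [mul_self_le_mul_self (by positivity) h1, mul_self_le_mul_self hs0 hadd]
    rw [not_le] at hclose
    have h3 : a / 3 ≤ ‖x - y‖ := by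
      nlinarith [norm_nonneg (x - y), sq_nonneg b, sq_nonneg a]
    have hnx : ‖a⁻¹ • x‖ ≤ 1 := by
      rw [norm_smul, norm_inv, Real.norm_eq_abs, abs_of_pos hapos, ← ha, inv_mul_cancel₀ hapos.ne']
    have hny : ‖a⁻¹ • y‖ ≤ 1 := by
      rw [norm_smul, norm_inv, Real.norm_eq_abs, abs_of_pos hapos, ← hb, inv_mul_le_one₀ hapos]
      exact hyx
    have hd : 1 / 3 ≤ ‖a⁻¹ • x - a⁻¹ • y‖ := by
      rw [← smul_sub, norm_smul, norm_inv, Real.norm_eq_abs, abs_of_pos hapos,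
        le_inv_mul_iff₀ hapos]
      linarith
    have h2 := hδ hnx hny hd
    rw [← smul_add, norm_smul, norm_inv, Real.norm_eq_abs, abs_of_pos hapos,
      inv_mul_le_iff₀ hapos] at h2
    have h2' : ‖x + y‖ ≤ (2 - δ) * a := by
      have : δ ≤ δ₀ := min_le_left _ _
      nlinarith
    nlinarith [mul_self_le_mul_self hs0 h2',
      mul_self_le_mul_self (show 0 ≤ (1 - δ / 4) * a by nlinarith) hclose.le,
      mul_nonneg (mul_nonneg hd0.le (show (0 : ℝ) ≤ 1 - δ by linarith)) (sq_nonneg a)]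
  have h4 : ‖x - y‖ ^ 2 - (a ^ 2 + b ^ 2) / 8 ≤ 4 * a ^ 2 := by
    nlinarith [mul_self_le_mul_self (norm_nonneg (x - y)) (hsub.trans (by linarith : a + b ≤ 2 * a))]
  nlinarith [mul_le_mul_of_nonneg_left h4 (show (0 : ℝ) ≤ δ ^ 2 / 64 by positivity)]

/-- Bounded closed convex sets, directed downwards, have a common point. -/
theorem inter_nonempty [CompleteSpace Y] (𝒦 : Set (Set Y)) (hne : 𝒦.Nonempty)
    (hdir : ∀ A ∈ 𝒦, ∀ B ∈ 𝒦, ∃ C ∈ 𝒦, C ⊆ A ∧ C ⊆ B)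
    (hK : ∀ A ∈ 𝒦, A.Nonempty ∧ IsClosed A ∧ Convex ℝ A) {R : ℝ}
    (hR : ∀ A ∈ 𝒦, ∀ x ∈ A, ‖x‖ ≤ R) :
    ∃ x, ∀ A ∈ 𝒦, x ∈ A := by
  classical
  let low : Set ℝ := {t | ∃ A ∈ 𝒦, ∀ x ∈ A, t ≤ ‖x‖}
  obtain ⟨A₀, hA₀⟩ := hne
  have hlow0 : (0 : ℝ) ∈ low := ⟨A₀, hA₀, fun x _ => norm_nonneg x⟩
  have hbdd : BddAbove low := by
    refine ⟨R, ?_⟩
    rintro t ⟨A, hA, ht⟩
    obtain ⟨x, hx⟩ := (hK A hA).1
    exact (ht x hx).trans (hR A hA x hx)
  set r := sSup low with hr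
  have hr0 : 0 ≤ r := le_csSup hbdd hlow0
  have hnear : ∀ A ∈ 𝒦, ∀ η : ℝ, 0 < η → ∃ x ∈ A, ‖x‖ ≤ r + η := by
    intro A hA η hη
    by_contra h
    simp only [not_exists, not_and, not_le] at h
    have : r + η ≤ r := le_csSup hbdd ⟨A, hA, fun x hx => (h x hx).le⟩
    linarith
  have hfar : ∀ η : ℝ, 0 < η → ∃ A ∈ 𝒦, ∀ x ∈ A, r - η ≤ ‖x‖ := by
    intro η hη
    obtain ⟨t, ⟨A, hA, ht⟩, htr⟩ := exists_lt_of_lt_csSup ⟨0, hlow0⟩ (show r - η < r by linarith)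
    exact ⟨A, hA, fun x hx => htr.le.trans (ht x hx)⟩
  -- points of almost least norm in a small set are close together
  have close : ∀ ε : ℝ, 0 < ε → ∃ η > 0, ∀ A ∈ 𝒦, (∀ x ∈ A, r - η ≤ ‖x‖) →
      ∀ x ∈ A, ∀ y ∈ A, ‖x‖ ≤ r + η → ‖y‖ ≤ r + η → ‖x - y‖ < ε := by
    intro ε hε
    rcases hr0.eq_or_lt with h0 | hpos
    · refine ⟨ε / 3, by linarith, fun A _ _ x _ y _ hx hy => ?_⟩
      calc ‖x - y‖ ≤ ‖x‖ + ‖y‖ := norm_sub_le _ _
        _ < ε := by linarith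
    obtain ⟨δ', hδ', hball'⟩ := exists_forall_closed_ball_dist_add_le_two_sub Y
      (show 0 < ε / (r + 1) by positivity)
    refine ⟨min 1 (δ' * r / 8), lt_min one_pos (by positivity), ?_⟩
    intro A hA hlo x hx y hy hxn hyn
    set η := min 1 (δ' * r / 8) with hη
    have h1 : η ≤ 1 := min_le_left _ _
    have h2 : η ≤ δ' * r / 8 := min_le_right _ _
    have hη0 : 0 < η := lt_min one_pos (by positivity)
    by_contra hxy
    rw [not_lt] at hxy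
    have hs : 0 < r + η := by linarith
    have hc : ∀ v : Y, ‖v‖ ≤ r + η → ‖(r + η)⁻¹ • v‖ ≤ 1 := by
      intro v hv
      rw [norm_smul, norm_inv, Real.norm_eq_abs, abs_of_pos hs, inv_mul_le_one₀ hs]
      exact hv
    have hd : ε / (r + 1) ≤ ‖(r + η)⁻¹ • x - (r + η)⁻¹ • y‖ := by
      rw [← smul_sub, norm_smul, norm_inv, Real.norm_eq_abs, abs_of_pos hs, div_eq_inv_mul]
      exact mul_le_mul (inv_anti₀ hs (by linarith)) hxy hε.le (by positivity)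
    have h3 := hball' (hc x hxn) (hc y hyn) hd
    rw [← smul_add, norm_smul, norm_inv, Real.norm_eq_abs, abs_of_pos hs,
      inv_mul_le_iff₀ hs] at h3
    have hm : (1 / 2 : ℝ) • (x + y) ∈ A := by
      rw [smul_add]
      exact (hK A hA).2.2 hx hy (by norm_num) (by norm_num) (by norm_num)
    have h4 := hlo _ hm
    rw [norm_smul, Real.norm_eq_abs, abs_of_pos (by norm_num : (0 : ℝ) < 1 / 2)] at h4
    nlinarith [mul_nonneg hδ'.le hη0.le]
  let e : ℕ → ℝ := fun n => 1 / ((n : ℝ) + 1)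
  have he : ∀ n, 0 < e n := fun n => by positivity
  choose S hS hSlo using fun n => hfar (e n) (he n)
  choose M hM hMl hMr using hdir
  let D : ℕ → {A // A ∈ 𝒦} := fun n => Nat.rec ⟨S 0, hS 0⟩
    (fun m A => ⟨M A.1 A.2 (S (m + 1)) (hS (m + 1)), hM _ _ _ _⟩) n
  have hDS : ∀ n, (D n).1 ⊆ S n := by
    intro n
    cases n with
    | zero => exact subset_rfl
    | succ m => exact hMr _ _ _ _
  have hDanti : ∀ {m n}, m ≤ n → (D n).1 ⊆ (D m).1 := by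
    intro m n hmn
    induction n, hmn using Nat.le_induction with
    | base => exact subset_rfl
    | succ n _ ih => exact (hMl _ _ _ _).trans ih
  choose x hxD hxn using fun n => hnear (D n).1 (D n).2 (e n) (he n)
  have hlim : ∀ ε : ℝ, 0 < ε → ∃ N, ∀ η : ℝ, ∀ A ∈ 𝒦, A ⊆ (D N).1 → η ≤ e N → ∀ p ∈ A,
      ‖p‖ ≤ r + η → ∀ n ≥ N, ‖x n - p‖ < ε := by
    intro ε hε
    obtain ⟨η₀, hη₀, hcl⟩ := close ε hε
    obtain ⟨N, hN⟩ := exists_nat_one_div_lt hη₀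
    refine ⟨N, fun η A _ hAN hη p hp hpn n hn => ?_⟩
    have hen : e n ≤ e N := Nat.one_div_le_one_div hn
    refine hcl (D N).1 (D N).2 (fun v hv => ?_) (x n) (hDanti hn (hxD n)) p (hAN hp) ?_ ?_
    · exact le_trans (by linarith) (hSlo N v (hDS N hv))
    · linarith [hxn n]
    · linarith
  have hcauchy : CauchySeq x := by
    refine Metric.cauchySeq_iff'.2 fun ε hε => ?_
    obtain ⟨N, hN⟩ := hlim ε hε
    refine ⟨N, fun n hn => ?_⟩
    rw [dist_eq_norm]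
    exact hN (e N) (D N).1 (D N).2 subset_rfl le_rfl (x N) (hxD N) (hxn N) n hn
  obtain ⟨p, hp⟩ := cauchySeq_tendsto_of_complete hcauchy
  refine ⟨p, fun A hA => ?_⟩
  choose y hyA hyn using fun n =>
    hnear (M A hA (D n).1 (D n).2) (hM _ _ _ _) (e n) (he n)
  have hy : Filter.Tendsto y Filter.atTop (nhds p) := by
    refine Metric.tendsto_atTop.2 fun ε hε => ?_
    obtain ⟨N, hN⟩ := hlim (ε / 2) (by linarith)
    obtain ⟨N', hN'⟩ := Metric.tendsto_atTop.1 hp (ε / 2) (by linarith)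
    refine ⟨max N N', fun n hn => ?_⟩
    have h1 : ‖x n - y n‖ < ε / 2 :=
      hN (e n) (M A hA (D n).1 (D n).2) (hM _ _ _ _)
        ((hMr _ _ _ _).trans (hDanti (le_trans (le_max_left _ _) hn)))
        (Nat.one_div_le_one_div (le_trans (le_max_left _ _) hn)) (y n) (hyA n) (hyn n) n
        (le_trans (le_max_left _ _) hn)
    have h2 := hN' n (le_trans (le_max_right _ _) hn)
    rw [dist_eq_norm] at h2 ⊢
    calc ‖y n - p‖ = ‖(x n - p) - (x n - y n)‖ := by congr 1; abel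
      _ ≤ ‖x n - p‖ + ‖x n - y n‖ := norm_sub_le _ _
      _ < ε := by linarith
  exact (hK A hA).2.1.mem_of_tendsto hy (Filter.Eventually.of_forall fun n => hMl _ _ _ _ (hyA n))

end Vale.Agent.P079
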